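import Vale.Agent.P336.H663.Defs

/-!
# P336: circuits whose middle gates have limited views
-/

namespace Vale.Agent.P336

/-- The literal `l` reads the variable `v`. -/
def Lit.Reads {n : ℕ} : Lit n → Fin n → Prop
  | .pos i, v => v = i
  | .neg i, v => v = i
  | .const _, _ => False

/-- The middle gate `j` has views of size at most `k` and of total size at most `W`: there are
sets of variables `V 0, …, V (J - 1)`, each with at most `k` elements, the sum of their sizes is
at most `W`, and every bottom gate which `j` reads only reads variables of one of them.  The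
number of bottom gates with the same view is unlimited. -/
def Circuit.Viewed {n : ℕ} (C : Circuit n) (k W : ℕ) (j : Fin C.middle) : Prop :=
  ∃ (J : ℕ) (V : Fin J → Finset (Fin n)), (∀ t, (V t).card ≤ k) ∧ ∑ t, (V t).card ≤ W ∧
    ∀ b ∈ C.conj j, ∃ t, ∀ l ∈ C.lits b, ∀ v, l.Reads v → v ∈ V t

/-- The middle gate `j` is `p`-local for a partition of the variables into blocks of size at most
`s`: there is a partition (given by the labels `π`) of the variables into blocks with at most `s`
elements such that every bottom gate which `j` reads only reads variables of at most `p` blocks. -/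
def Circuit.Blocked {n : ℕ} (C : Circuit n) (p s : ℕ) (j : Fin C.middle) : Prop :=
  ∃ π : Fin n → ℕ, (∀ t, (Finset.univ.filter fun v => π v = t).card ≤ s) ∧
    ∀ b ∈ C.conj j, ∃ T : Finset ℕ, T.card ≤ p ∧ ∀ l ∈ C.lits b, ∀ v, l.Reads v → π v ∈ T

theorem Lit.eval_congr {n : ℕ} (l : Lit n) {x y : Fin n → Bool}
    (h : ∀ v, l.Reads v → x v = y v) : l.eval x = l.eval y := by
  cases l with
  | pos i => exact h i rfl
  | neg i => exact congrArg (fun b => !b) (h i rfl)
  | const b => rfl

end Vale.Agent.P336
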