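import Vale.Agent.P336.R2.H836.Core
import Vale.Agent.P336.R2.H836.Views
import Vale.Agent.P336.R2.H444.LangForm

/-!
# P336: circuits with limited views for the slices of the language
-/

namespace Vale.Agent.P336.R2.H836

open Finset

/-- The word which encodes `p`, `s` and `x`. -/
def wordOf (N p m : ℕ) (s : Fin (N / 4) → Bool) (x : Fin p × Fin m → Bool) : Fin N → Bool :=
  fun t =>
    if (t : ℕ) < N / 4 then decide ((t : ℕ) < p)
    else if ht : (t : ℕ) - N / 4 < N / 4 then s ⟨t - N / 4, ht⟩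
    else if hx : ((t : ℕ) - 2 * (N / 4)) / m < p ∧ 0 < m then
      x (⟨((t : ℕ) - 2 * (N / 4)) / m, hx.1⟩,
        ⟨((t : ℕ) - 2 * (N / 4)) % m, Nat.mod_lt _ hx.2⟩)
    else false

section

variable {N p m : ℕ}

theorem pos_lt (hpm : p * m ≤ N / 4) (v : Fin p × Fin m) :
    2 * (N / 4) + v.1 * m + v.2 < N := by
  obtain ⟨i, j⟩ := v
  have hi := i.isLt
  have hj := j.isLt
  have h1 : (i : ℕ) * m + j < p * m := by
    have h2 : ((i : ℕ) + 1) * m ≤ p * m := Nat.mul_le_mul_right m hi
    rw [add_mul, one_mul] at h2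
    exact lt_of_lt_of_le (Nat.add_lt_add_left hj _) h2
  show 2 * (N / 4) + (i : ℕ) * m + (j : ℕ) < N
  omega

/-- The position of a variable in the word. -/
def pos (hpm : p * m ≤ N / 4) (v : Fin p × Fin m) : Fin N :=
  ⟨2 * (N / 4) + v.1 * m + v.2, pos_lt hpm v⟩

theorem pos_injective (hpm : p * m ≤ N / 4) : Function.Injective (pos (p := p) (m := m) hpm) := by
  rintro ⟨i, j⟩ ⟨i', j'⟩ h
  have h1 : 2 * (N / 4) + (i : ℕ) * m + (j : ℕ) = 2 * (N / 4) + (i' : ℕ) * m + (j' : ℕ) :=
    congrArg Fin.val h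
  have h2 : (i : ℕ) * m + (j : ℕ) = (i' : ℕ) * m + (j' : ℕ) := by omega
  have hj := j.isLt
  have hj' := j'.isLt
  have h3 : (i : ℕ) = i' := by
    have e1 : ((i : ℕ) * m + j) / m = i := by
      rw [mul_comm, Nat.mul_add_div (by omega), Nat.div_eq_of_lt hj, add_zero]
    have e2 : ((i' : ℕ) * m + j') / m = i' := by
      rw [mul_comm, Nat.mul_add_div (by omega), Nat.div_eq_of_lt hj', add_zero]
    rw [← e1, h2, e2]
  have h4 : (j : ℕ) = j' := by
    rw [h3] at h2
    omega
  exact Prod.ext (Fin.ext h3) (Fin.ext h4)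

theorem wordOf_s (s : Fin (N / 4) → Bool) (x : Fin p × Fin m → Bool) (d : Fin (N / 4))
    (h : N / 4 + (d : ℕ) < N) : wordOf N p m s x ⟨N / 4 + d, h⟩ = s d := by
  have hd := d.isLt
  unfold wordOf
  simp only
  rw [if_neg (by omega), dif_pos (by omega)]
  congr 1
  exact Fin.ext (by simp)

theorem wordOf_x (hpm : p * m ≤ N / 4) (s : Fin (N / 4) → Bool) (x : Fin p × Fin m → Bool)
    (v : Fin p × Fin m) : wordOf N p m s x (pos hpm v) = x v := by
  obtain ⟨i, j⟩ := v
  have hi := i.isLt
  have hj := j.isLt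
  have hm : 0 < m := by omega
  have e0 : 2 * (N / 4) + (i : ℕ) * m + (j : ℕ) - 2 * (N / 4) = m * i + j := by
    rw [mul_comm m]
    omega
  have e1 : (2 * (N / 4) + (i : ℕ) * m + (j : ℕ) - 2 * (N / 4)) / m = i := by
    rw [e0, Nat.mul_add_div hm, Nat.div_eq_of_lt hj, add_zero]
  have e2 : (2 * (N / 4) + (i : ℕ) * m + (j : ℕ) - 2 * (N / 4)) % m = j := by
    rw [e0, Nat.mul_add_mod, Nat.mod_eq_of_lt hj]
  unfold wordOf pos
  simp only
  rw [if_neg (by omega), dif_neg (by omega), dif_pos ⟨by rw [e1]; exact hi, hm⟩]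
  congr 1
  exact Prod.ext (Fin.ext e1) (Fin.ext e2)

theorem count_wordOf (hp : p ≤ N / 4) (s : Fin (N / 4) → Bool) (x : Fin p × Fin m → Bool) :
    ((List.ofFn (wordOf N p m s x)).take (N / 4)).count true = p := by
  have h1 : (List.ofFn (wordOf N p m s x)).take (N / 4) =
      List.replicate p true ++ List.replicate (N / 4 - p) false := by
    refine List.ext_getElem ?_ fun n h1 h2 => ?_
    · simp only [List.length_take, List.length_ofFn, List.length_append, List.length_replicate]
      omega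
    · rw [List.length_take, List.length_ofFn] at h1
      rw [List.getElem_take, List.getElem_ofFn, List.getElem_append]
      unfold wordOf
      simp only [List.length_replicate, List.getElem_replicate]
      rw [if_pos (by omega)]
      split_ifs with h3
      · exact decide_eq_true h3
      · exact decide_eq_false h3
  rw [h1, List.count_append, List.count_replicate, List.count_replicate]
  simp

theorem mem_lang_wordOf (hp1 : 1 ≤ p) (hm : m = N / 4 / p) (hpm : p * m ≤ N / 4)
    (hp : p ≤ N / 4) (s : Fin (N / 4) → Bool) (x : Fin p × Fin m → Bool) :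
    List.ofFn (wordOf N p m s x) ∈ lang ↔ form s x = 1 := by
  have h1 : ∀ d : Fin (N / 4), N / 4 + (d : ℕ) < N := by
    intro d
    have := d.isLt
    omega
  have h2 := H444.value_eq hp1 hm (wordOf N p m s x) (count_wordOf hp s x) h1 (pos_lt hpm)
  have h3 : (fun d : Fin (N / 4) => wordOf N p m s x ⟨N / 4 + d, h1 d⟩) = s :=
    funext fun d => wordOf_s s x d (h1 d)
  have h4 : (fun v : Fin p × Fin m => wordOf N p m s x
      ⟨2 * (N / 4) + v.1 * m + v.2, pos_lt hpm v⟩) = x := funext fun v => wordOf_x hpm s x v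
  rw [h3, h4] at h2
  rw [← h2]
  show value _ % 2 = 1 ↔ _
  constructor
  · intro h
    rw [← Nat.mod_add_div (value (List.ofFn (wordOf N p m s x))) 2, h]
    push_cast
    rw [show (2 : ZMod 2) = 0 from rfl, zero_mul, add_zero]
  · intro h
    have h5 : ((value (List.ofFn (wordOf N p m s x)) : ℕ) : ZMod 2) = ((1 : ℕ) : ZMod 2) := by
      rw [h, Nat.cast_one]
    exact (ZMod.natCast_eq_natCast_iff' _ _ 2).1 h5

theorem wordOf_mix (hpm : p * m ≤ N / 4) (s : Fin (N / 4) → Bool) (x z : Fin p × Fin m → Bool)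
    (A : Finset (Fin p × Fin m)) (t : Fin N) (ht : ∀ v ∈ A, t ≠ pos hpm v) :
    wordOf N p m s (mix A x z) t = wordOf N p m s x t := by
  by_cases h : ∃ v, t = pos hpm v
  · obtain ⟨v, rfl⟩ := h
    rw [wordOf_x, wordOf_x]
    unfold mix
    rw [if_neg fun hv => ht v hv rfl]
  · unfold wordOf
    split_ifs with h1 h2 h3
    · rfl
    · rfl
    · exfalso
      refine h ⟨(⟨((t : ℕ) - 2 * (N / 4)) / m, h3.1⟩,
        ⟨((t : ℕ) - 2 * (N / 4)) % m, Nat.mod_lt _ h3.2⟩), Fin.ext ?_⟩
      show (t : ℕ) = 2 * (N / 4) + ((t : ℕ) - 2 * (N / 4)) / m * m + ((t : ℕ) - 2 * (N / 4)) % m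
      have h4 := Nat.div_add_mod ((t : ℕ) - 2 * (N / 4)) m
      rw [mul_comm] at h4
      omega
    · rfl

/-- **Many middle gates.**  The slice of length `N` or its complement; for every middle gate the
bottom gates are divided into `p` classes, and the bottom gates of the class `i` do not read at
least `a` variables of the block `i`. -/
theorem many_gates {a : ℕ} (hp1 : 1 ≤ p) (hm : m = N / 4 / p) (hpm : p * m ≤ N / 4)
    (hp : p ≤ N / 4) (hm1 : 1 ≤ m) (ha : a ≤ m) (C : Circuit N)
    (hC : ∀ j ∈ C.top, ∃ (c : Fin C.bottom → Fin p) (A : Fin p → Finset (Fin m)),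
      (∀ i, a ≤ (A i).card) ∧
      ∀ b ∈ C.conj j, ∀ l ∈ C.lits b, ∀ v ∈ A (c b), ¬ l.Reads (pos hpm (c b, v)))
    (e : Bool) (hf : ∀ x, C.Accepts x ↔ slice lang N x = e) :
    (2 : ℝ) ^ a ≤ p * (2 * C.middle + 1) ^ 2 ^ p := by
  have h0 := core (γ := Fin C.middle) (a := a) (h := N / 4) hp1 hpm hm1 ha
    (fun j s x => j ∈ C.top ∧ ∀ b ∈ C.conj j, ∃ l ∈ C.lits b, l.eval (wordOf N p m s x) = true)
    ?_ (if e = true then 1 else 0) ?_
  · rw [Fintype.card_fin] at h0
    exact h0
  · intro j
    by_cases hj : j ∈ C.top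
    · obtain ⟨c, A, hA, hr⟩ := hC j hj
      refine ⟨A, fun i s x => ∀ b ∈ C.conj j, c b = i →
        ∃ l ∈ C.lits b, l.eval (wordOf N p m s x) = true, hA, ?_, ?_⟩
      · intro i s x z
        have h1 : ∀ b ∈ C.conj j, c b = i → ∀ l ∈ C.lits b,
            l.eval (wordOf N p m s (mix (emb i (A i)) x z)) = l.eval (wordOf N p m s x) := by
          intro b hb hci l hl
          refine l.eval_congr fun v hv => wordOf_mix hpm s x z _ v fun w hw hvw => ?_
          obtain ⟨hw1, hw2⟩ := mem_emb.1 hw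
          subst hci
          refine hr b hb l hl w.2 hw2 ?_
          have h2 : (c b, w.2) = w := by rw [← hw1]
          rw [h2, ← hvw]
          exact hv
        constructor
        · intro h b hb hci
          obtain ⟨l, hl, hle⟩ := h b hb hci
          exact ⟨l, hl, by rw [← h1 b hb hci l hl]; exact hle⟩
        · intro h b hb hci
          obtain ⟨l, hl, hle⟩ := h b hb hci
          exact ⟨l, hl, by rw [h1 b hb hci l hl]; exact hle⟩
      · intro s x
        constructor
        · rintro ⟨_, h⟩ i b hb _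
          exact h b hb
        · intro h
          exact ⟨hj, fun b hb => h (c b) b hb rfl⟩
    · refine ⟨fun _ => Finset.univ, fun _ _ _ => False, fun i => ?_, fun _ _ _ _ => Iff.rfl, ?_⟩
      · rw [Finset.card_univ, Fintype.card_fin]
        exact ha
      · intro s x
        constructor
        · exact fun h => absurd h.1 hj
        · exact fun h => (h ⟨0, hp1⟩).elim
  · intro s x
    have h1 : (∃ j : Fin C.middle, j ∈ C.top ∧ ∀ b ∈ C.conj j, ∃ l ∈ C.lits b,
        l.eval (wordOf N p m s x) = true) ↔ C.Accepts (wordOf N p m s x) := Iff.rfl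
    rw [h1, hf]
    have h2 := mem_lang_wordOf hp1 hm hpm hp s x
    classical
    unfold slice
    cases e
    · rw [decide_eq_false_iff_not, h2, if_neg (by simp)]
      rcases zmod2_cases (form s x) with h3 | h3 <;> rw [h3] <;> simp
    · rw [decide_eq_true_iff, h2, if_pos rfl]

end

end Vale.Agent.P336.R2.H836
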