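import Vale.Agent.P336.R2.H836.Views

/-!
# P336: circuits whose bottom gates read few views
-/

namespace Vale.Agent.P336

open Classical in
/-- The middle gate `j` has `p`-local views of size at most `k`, each variable in at most `w` of
them: there are sets of variables `V 0, …, V (J - 1)`, each with at most `k` elements, every
variable belongs to at most `w` of them, and every bottom gate which `j` reads only reads
variables of the union of at most `p` of them. -/
def Circuit.LocalViewed {n : ℕ} (C : Circuit n) (p k w : ℕ) (j : Fin C.middle) : Prop :=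
  ∃ (J : ℕ) (V : Fin J → Finset (Fin n)), (∀ t, (V t).card ≤ k) ∧
    (∀ v, (Finset.univ.filter fun t => v ∈ V t).card ≤ w) ∧
    ∀ b ∈ C.conj j, ∃ T : Finset (Fin J), T.card ≤ p ∧
      ∀ l ∈ C.lits b, ∀ v, l.Reads v → ∃ t ∈ T, v ∈ V t

end Vale.Agent.P336
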