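import Vale.Agent.P336.R2.H836.Views

/-!
# P336: circuits whose wide bottom gates have limited views
-/

namespace Vale.Agent.P336

/-- The variables which the bottom gate `b` reads. -/
def Circuit.vars {n : ℕ} (C : Circuit n) (b : Fin C.bottom) : Set (Fin n) :=
  {v | ∃ l ∈ C.lits b, l.Reads v}

/-- The wide bottom gates of the middle gate `j` have views of size at most `k` and of total size
at most `W`: there are sets of variables `V 0, …, V (J - 1)`, each with at most `k` elements, the
sum of their sizes is at most `W`, and every bottom gate which `j` reads either reads at most `r`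
variables or only reads variables of one of the sets. -/
def Circuit.WideViewed {n : ℕ} (C : Circuit n) (r k W : ℕ) (j : Fin C.middle) : Prop :=
  ∃ (J : ℕ) (V : Fin J → Finset (Fin n)), (∀ t, (V t).card ≤ k) ∧ ∑ t, (V t).card ≤ W ∧
    ∀ b ∈ C.conj j, (C.vars b).encard ≤ r ∨ ∃ t, C.vars b ⊆ V t

open Classical in
/-- The wide bottom gates of the middle gate `j` have `p`-local views: there are sets of variables
with at most `k` elements, every variable belongs to at most `w` of them, and every bottom gate
which `j` reads either reads at most `r` variables or only reads variables of the union of at most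
`p` of the sets. -/
def Circuit.WideLocal {n : ℕ} (C : Circuit n) (r p k w : ℕ) (j : Fin C.middle) : Prop :=
  ∃ (J : ℕ) (V : Fin J → Finset (Fin n)), (∀ t, (V t).card ≤ k) ∧
    (∀ v, (Finset.univ.filter fun t => v ∈ V t).card ≤ w) ∧
    ∀ b ∈ C.conj j, (C.vars b).encard ≤ r ∨
      ∃ T : Finset (Fin J), T.card ≤ p ∧ ∀ v ∈ C.vars b, ∃ t ∈ T, v ∈ V t

end Vale.Agent.P336
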