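import Vale.Agent.P336.R2.H836.Core

/-!
# P336: gates whose bottom gates see at most one cell in every block
-/

namespace Vale.Agent.P336.R2.H836

open Finset

variable {p m : ℕ}

theorem abs_E_le {α : Type*} [Fintype α] [Nonempty α] {f : α → ℝ} {c : ℝ}
    (h : ∀ a, |f a| ≤ c) : |E f| ≤ c := by
  rw [abs_le]
  constructor
  · calc -c = E fun _ : α => -c := (E_const _).symm
      _ ≤ E f := E_mono fun a => (abs_le.1 (h a)).1
  · calc E f ≤ E fun _ : α => c := E_mono fun a => (abs_le.1 (h a)).2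
      _ = c := E_const _

/-- Products over proper subfamilies of the functions `χ ρ`, the function `χ ρ` sees only the
cells `B i (ρ i)`. -/
theorem abs_corr_sub_le {h a g : ℕ} (hp : 1 ≤ p) (hm : p * m ≤ h) (hm1 : 1 ≤ m)
    (B : Fin p → Fin g → Finset (Fin m)) (hB : ∀ i r, a ≤ (B i r).card)
    (F : Fin p → (Fin h → Bool) → (Fin p × Fin m → Bool) → ℝ)
    (hF1 : ∀ i s x, |F i s x| ≤ 1)
    (hF2 : ∀ i r s x z, F i s (mix (emb i (B i r)) x z) = F i s x)
    (χ : (Fin p → Fin g) → (Fin h → Bool) → (Fin p × Fin m → Bool) → ℝ)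
    (hχ1 : ∀ ρ s x, |χ ρ s x| ≤ 1)
    (hχ2 : ∀ ρ i r, r ≠ ρ i → ∀ s x z, χ ρ s (mix (emb i (B i r)) x z) = χ ρ s x)
    (T : Finset (Fin p → Fin g)) (hT : T ≠ Finset.univ) {β : ℝ} (hβ0 : 0 ≤ β)
    (hβ : p * (1 / 2 : ℝ) ^ a ≤ β ^ 2 ^ p) :
    |E fun s => E fun x => sgn2 (form s x) * ((∏ i, F i s x) * ∏ ρ ∈ T, χ ρ s x)| ≤ β := by
  classical
  obtain ⟨τ, hτ⟩ : ∃ τ, τ ∉ T := by
    by_contra hcon
    push Not at hcon
    exact hT (Finset.eq_univ_iff_forall.2 hcon)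
  have hκ : ∀ ρ : Fin p → Fin g, ∃ i : Fin p, ρ ∈ T → τ i ≠ ρ i := by
    intro ρ
    by_cases hρ : ρ ∈ T
    · have h1 : τ ≠ ρ := fun h => hτ (h ▸ hρ)
      obtain ⟨i, hi⟩ := Function.ne_iff.1 h1
      exact ⟨i, fun _ => hi⟩
    · exact ⟨⟨0, hp⟩, fun h => absurd h hρ⟩
  choose κ hκ using hκ
  have h1 := abs_corr_le (h := h) hp hm hm1 (fun i => B i (τ i)) (fun i => hB i (τ i))
    (fun i s x => F i s x * ∏ ρ ∈ T.filter (fun ρ => κ ρ = i), χ ρ s x) ?_ ?_ hβ0 hβ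
  · have h2 : ∀ s x, (∏ i, (F i s x * ∏ ρ ∈ T.filter (fun ρ => κ ρ = i), χ ρ s x)) =
        (∏ i, F i s x) * ∏ ρ ∈ T, χ ρ s x := by
      intro s x
      rw [Finset.prod_mul_distrib, Finset.prod_fiberwise]
    simp only [h2] at h1
    exact h1
  · intro i s x
    rw [abs_mul]
    refine mul_le_one₀ (hF1 i s x) (abs_nonneg _) ?_
    rw [Finset.abs_prod]
    exact Finset.prod_le_one (fun _ _ => abs_nonneg _) fun ρ _ => hχ1 ρ s x
  · intro i s x z
    rw [hF2]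
    congr 1
    refine Finset.prod_congr rfl fun ρ hρ => ?_
    obtain ⟨h3, h4⟩ := Finset.mem_filter.1 hρ
    subst h4
    exact hχ2 ρ (κ ρ) (τ (κ ρ)) (hκ ρ h3) s x z

open Classical in
/-- One gate. -/
theorem abs_corr_blocks_le {h a g : ℕ} (hp : 1 ≤ p) (hm : p * m ≤ h) (hm1 : 1 ≤ m)
    (B : Fin p → Fin g → Finset (Fin m)) (hB : ∀ i r, a ≤ (B i r).card)
    (F : Fin p → (Fin h → Bool) → (Fin p × Fin m → Bool) → Prop)
    (hF : ∀ i r s x z, F i s (mix (emb i (B i r)) x z) ↔ F i s x)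
    (H : (Fin p → Fin g) → (Fin h → Bool) → (Fin p × Fin m → Bool) → Prop)
    (hH : ∀ ρ i r, r ≠ ρ i → ∀ s x z, H ρ s (mix (emb i (B i r)) x z) ↔ H ρ s x)
    {β : ℝ} (hβ0 : 0 ≤ β) (hβ : p * (1 / 2 : ℝ) ^ a ≤ β ^ 2 ^ p) :
    |E fun s => E fun x => sgn2 (form s x) *
      if (∀ i, F i s x) ∧ ∀ ρ, H ρ s x then (1 : ℝ) else 0| ≤ β + (1 / 2) ^ g ^ p := by
  have hcard : Fintype.card (Fin p → Fin g) = g ^ p := by
    rw [Fintype.card_fun, Fintype.card_fin, Fintype.card_fin]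
  have h1 : ∀ s x, (sgn2 (form s x) *
      if (∀ i, F i s x) ∧ ∀ ρ, H ρ s x then (1 : ℝ) else 0) =
      ∑ T ∈ (Finset.univ : Finset (Fin p → Fin g)).powerset, (1 / 2 : ℝ) ^ g ^ p *
        (sgn2 (form s x) * ((∏ i, if F i s x then (1 : ℝ) else 0) *
          ∏ ρ ∈ T, if H ρ s x then (1 : ℝ) else -1)) := by
    intro s x
    have e1 : (if (∀ i, F i s x) ∧ ∀ ρ, H ρ s x then (1 : ℝ) else 0) =
        (∏ i, if F i s x then (1 : ℝ) else 0) * ∏ ρ, if H ρ s x then (1 : ℝ) else 0 := by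
      by_cases h2 : ∀ i, F i s x
      · by_cases h3 : ∀ ρ, H ρ s x
        · rw [if_pos ⟨h2, h3⟩, Finset.prod_eq_one fun i _ => if_pos (h2 i),
            Finset.prod_eq_one fun ρ _ => if_pos (h3 ρ), one_mul]
        · rw [if_neg fun h4 => h3 h4.2]
          push Not at h3
          obtain ⟨ρ, hρ⟩ := h3
          rw [Finset.prod_eq_zero (Finset.mem_univ ρ) (if_neg hρ), mul_zero]
      · rw [if_neg fun h4 => h2 h4.1]
        push Not at h2
        obtain ⟨i, hi⟩ := h2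
        rw [Finset.prod_eq_zero (Finset.mem_univ i) (if_neg hi), zero_mul]
    have e2 : (∏ ρ, if H ρ s x then (1 : ℝ) else 0) = (1 / 2 : ℝ) ^ g ^ p *
        ∑ T ∈ (Finset.univ : Finset (Fin p → Fin g)).powerset,
          ∏ ρ ∈ T, if H ρ s x then (1 : ℝ) else -1 := by
      rw [← Finset.prod_one_add, ← hcard, ← Finset.card_univ, ← Finset.prod_const,
        ← Finset.prod_mul_distrib]
      refine Finset.prod_congr rfl fun ρ _ => ?_
      split_ifs <;> norm_num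
    rw [e1, e2, Finset.mul_sum, Finset.mul_sum, Finset.mul_sum]
    refine Finset.sum_congr rfl fun T _ => ?_
    ring
  have h2 : (E fun s : Fin h → Bool => E fun x : Fin p × Fin m → Bool => (sgn2 (form s x) *
      if (∀ i, F i s x) ∧ ∀ ρ, H ρ s x then (1 : ℝ) else 0)) =
      ∑ T ∈ (Finset.univ : Finset (Fin p → Fin g)).powerset, (1 / 2 : ℝ) ^ g ^ p *
        E fun s : Fin h → Bool => E fun x : Fin p × Fin m → Bool =>
        (sgn2 (form s x) * ((∏ i, if F i s x then (1 : ℝ) else 0) *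
          ∏ ρ ∈ T, if H ρ s x then (1 : ℝ) else -1)) := by
    simp only [h1, E_sum, E_mul_left]
  rw [h2]
  refine (Finset.abs_sum_le_sum_abs _ _).trans ?_
  rw [← Finset.insert_erase (Finset.mem_powerset_self (Finset.univ : Finset (Fin p → Fin g))),
    Finset.sum_insert (Finset.notMem_erase _ _)]
  have h3 : |(1 / 2 : ℝ) ^ g ^ p * E fun s : Fin h → Bool => E fun x : Fin p × Fin m → Bool =>
        (sgn2 (form s x) * ((∏ i, if F i s x then (1 : ℝ) else 0) *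
          ∏ ρ ∈ (Finset.univ : Finset (Fin p → Fin g)), if H ρ s x then (1 : ℝ) else -1))| ≤
      (1 / 2) ^ g ^ p := by
    rw [abs_mul, abs_of_nonneg (by positivity : (0 : ℝ) ≤ (1 / 2) ^ g ^ p)]
    refine mul_le_of_le_one_right (by positivity) ?_
    refine abs_E_le fun s => abs_E_le fun x => ?_
    rw [abs_mul, abs_mul, Finset.abs_prod, Finset.abs_prod]
    have h5 : |sgn2 (form s x)| ≤ 1 := by
      unfold sgn2
      split_ifs <;> simp
    have h6 : ∏ i, |if F i s x then (1 : ℝ) else 0| ≤ 1 :=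
      Finset.prod_le_one (fun _ _ => abs_nonneg _) fun i _ => by split_ifs <;> simp
    have h7 : ∏ ρ, |if H ρ s x then (1 : ℝ) else -1| ≤ 1 :=
      Finset.prod_le_one (fun _ _ => abs_nonneg _) fun ρ _ => by split_ifs <;> simp
    have h8 : 0 ≤ ∏ ρ, |if H ρ s x then (1 : ℝ) else -1| :=
      Finset.prod_nonneg fun _ _ => abs_nonneg _
    have h9 : 0 ≤ ∏ i, |if F i s x then (1 : ℝ) else 0| :=
      Finset.prod_nonneg fun _ _ => abs_nonneg _
    exact mul_le_one₀ h5 (mul_nonneg h9 h8) (mul_le_one₀ h6 h8 h7)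
  have h4 : ∑ T ∈ (Finset.univ : Finset (Fin p → Fin g)).powerset.erase Finset.univ,
      |(1 / 2 : ℝ) ^ g ^ p * E fun s : Fin h → Bool => E fun x : Fin p × Fin m → Bool =>
        (sgn2 (form s x) * ((∏ i, if F i s x then (1 : ℝ) else 0) *
          ∏ ρ ∈ T, if H ρ s x then (1 : ℝ) else -1))| ≤ β := by
    have h5 : ∀ T ∈ (Finset.univ : Finset (Fin p → Fin g)).powerset.erase Finset.univ,
        |(1 / 2 : ℝ) ^ g ^ p * E fun s : Fin h → Bool => E fun x : Fin p × Fin m → Bool =>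
        (sgn2 (form s x) * ((∏ i, if F i s x then (1 : ℝ) else 0) *
          ∏ ρ ∈ T, if H ρ s x then (1 : ℝ) else -1))| ≤ (1 / 2 : ℝ) ^ g ^ p * β := by
      intro T hT
      rw [abs_mul, abs_of_nonneg (by positivity : (0 : ℝ) ≤ (1 / 2) ^ g ^ p)]
      refine mul_le_mul_of_nonneg_left ?_ (by positivity)
      refine abs_corr_sub_le hp hm hm1 B hB (fun i s x => if F i s x then (1 : ℝ) else 0)
        (fun i s x => by split_ifs <;> simp)
        (fun i r s x z => by rw [if_congr (hF i r s x z) rfl rfl])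
        (fun ρ s x => if H ρ s x then (1 : ℝ) else -1)
        (fun ρ s x => by split_ifs <;> simp)
        (fun ρ i r hr s x z => by rw [if_congr (hH ρ i r hr s x z) rfl rfl])
        T (Finset.mem_erase.1 hT).1 hβ0 hβ
    refine (Finset.sum_le_sum h5).trans ?_
    rw [Finset.sum_const, nsmul_eq_mul]
    have h6 : (((Finset.univ : Finset (Fin p → Fin g)).powerset.erase Finset.univ).card : ℝ) ≤
        2 ^ g ^ p := by
      have h7 : ((Finset.univ : Finset (Fin p → Fin g)).powerset.erase Finset.univ).card ≤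
          2 ^ g ^ p := by
        refine (Finset.card_erase_le).trans ?_
        rw [Finset.card_powerset, Finset.card_univ, hcard]
      exact_mod_cast h7
    calc (((Finset.univ : Finset (Fin p → Fin g)).powerset.erase Finset.univ).card : ℝ) *
          ((1 / 2) ^ g ^ p * β) ≤ 2 ^ g ^ p * ((1 / 2) ^ g ^ p * β) :=
          mul_le_mul_of_nonneg_right h6 (by positivity)
      _ = (2 * (1 / 2)) ^ g ^ p * β := by rw [mul_pow, mul_assoc]
      _ = β := by norm_num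
  linarith

open Classical in
/-- **The core for blocks.** -/
theorem core_blocks {h a g t : ℕ} (hp : 1 ≤ p) (hm : p * m ≤ h) (hm1 : 1 ≤ m) (ha : a ≤ m)
    (hat : 2 ^ p * t + p ≤ a) (htg : t ≤ g ^ p) {γ : Type*} [Fintype γ]
    (G : γ → (Fin h → Bool) → (Fin p × Fin m → Bool) → Prop)
    (hG : ∀ j, ∃ (B : Fin p → Fin g → Finset (Fin m))
      (F : Fin p → (Fin h → Bool) → (Fin p × Fin m → Bool) → Prop)
      (H : (Fin p → Fin g) → (Fin h → Bool) → (Fin p × Fin m → Bool) → Prop),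
      (∀ i r, a ≤ (B i r).card) ∧
      (∀ i r s x z, F i s (mix (emb i (B i r)) x z) ↔ F i s x) ∧
      (∀ ρ i r, r ≠ ρ i → ∀ s x z, H ρ s (mix (emb i (B i r)) x z) ↔ H ρ s x) ∧
      ∀ s x, (G j s x ↔ (∀ i, F i s x) ∧ ∀ ρ, H ρ s x))
    (b : ZMod 2) (hf : ∀ s x, (∃ j, G j s x) ↔ form s x = b) :
    (1 : ℝ) ≤ (2 * Fintype.card γ + 1) * (2 * (1 / 2 : ℝ) ^ t) := by
  have hβ : p * (1 / 2 : ℝ) ^ a ≤ ((1 / 2 : ℝ) ^ t) ^ 2 ^ p := by
    have h1 : (p : ℝ) ≤ 2 ^ p := by exact_mod_cast Nat.lt_two_pow_self.le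
    have h2 : (1 / 2 : ℝ) ^ a ≤ (1 / 2) ^ (2 ^ p * t + p) :=
      pow_le_pow_of_le_one (by norm_num) (by norm_num) hat
    calc p * (1 / 2 : ℝ) ^ a ≤ 2 ^ p * (1 / 2) ^ (2 ^ p * t + p) :=
          mul_le_mul h1 h2 (by positivity) (by positivity)
      _ = (2 * (1 / 2)) ^ p * ((1 / 2 : ℝ) ^ t) ^ 2 ^ p := by
          rw [pow_add, mul_pow, ← pow_mul, mul_comm t]
          ring
      _ = _ := by norm_num
  have h0 : (0 : ℝ) ≤ (1 / 2 : ℝ) ^ t := by positivity
  have h3 : (1 / 2 : ℝ) ^ g ^ p ≤ (1 / 2) ^ t :=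
    pow_le_pow_of_le_one (by norm_num) (by norm_num) htg
  refine gates_bound G b hf (fun j => ?_) ?_
  · obtain ⟨B, F, H, hB, hF, hH, hGj⟩ := hG j
    have h4 := abs_corr_blocks_le hp hm hm1 B hB F hF H hH h0 hβ
    have h5 : ∀ s x, (if (∀ i, F i s x) ∧ ∀ ρ, H ρ s x then (1 : ℝ) else 0) =
        if G j s x then (1 : ℝ) else 0 := fun s x => if_congr (hGj s x).symm rfl rfl
    simp only [h5] at h4
    refine h4.trans ?_
    linarith
  · refine (abs_bias_le hp hm hm1 ha h0 hβ).trans ?_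
    linarith

end Vale.Agent.P336.R2.H836
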