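import Mathlib

/-!
# P336: means over finite types and the inequality of Babai, Nisan and Szegedy
-/

namespace Vale.Agent.P336.R2.H836

open Finset

section Mean

variable {α β : Type*} [Fintype α] [Fintype β]

/-- The mean of a function. -/
noncomputable def E (f : α → ℝ) : ℝ := (∑ a, f a) / Fintype.card α

theorem E_add (f g : α → ℝ) : E (fun a => f a + g a) = E f + E g := by
  unfold E
  rw [Finset.sum_add_distrib, add_div]

theorem E_mul_left (c : ℝ) (f : α → ℝ) : E (fun a => c * f a) = c * E f := by
  unfold E
  rw [← Finset.mul_sum, mul_div_assoc]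

theorem E_neg (f : α → ℝ) : E (fun a => -f a) = -E f := by
  unfold E
  rw [Finset.sum_neg_distrib, neg_div]

theorem E_sum {ι : Type*} (s : Finset ι) (f : ι → α → ℝ) :
    E (fun a => ∑ i ∈ s, f i a) = ∑ i ∈ s, E (f i) := by
  unfold E
  rw [Finset.sum_comm, Finset.sum_div]

theorem E_comm (f : α → β → ℝ) :
    E (fun a => E fun b => f a b) = E fun b => E fun a => f a b := by
  unfold E
  rw [← Finset.sum_div, ← Finset.sum_div, Finset.sum_comm, div_right_comm]

theorem E_mono {f g : α → ℝ} (h : ∀ a, f a ≤ g a) : E f ≤ E g := by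
  unfold E
  exact div_le_div_of_nonneg_right (Finset.sum_le_sum fun a _ => h a) (Nat.cast_nonneg _)

theorem E_const [Nonempty α] (c : ℝ) : E (fun _ : α => c) = c := by
  unfold E
  rw [Finset.sum_const, Finset.card_univ, nsmul_eq_mul, mul_comm,
    mul_div_assoc, div_self (Nat.cast_ne_zero.2 Fintype.card_ne_zero), mul_one]

theorem E_nonneg {f : α → ℝ} (h : ∀ a, 0 ≤ f a) : 0 ≤ E f :=
  div_nonneg (Finset.sum_nonneg fun a _ => h a) (Nat.cast_nonneg _)

theorem E_pow_le [Nonempty α] (f : α → ℝ) {n : ℕ} (hn : Even n) :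
    E f ^ n ≤ E fun a => f a ^ n := by
  have hc : (0 : ℝ) < Fintype.card α := Nat.cast_pos.2 Fintype.card_pos
  have h := Real.pow_arith_mean_le_arith_mean_pow_of_even (Finset.univ : Finset α)
    (fun _ => ((Fintype.card α : ℝ))⁻¹) f (fun _ _ => by positivity)
    (by rw [Finset.sum_const, Finset.card_univ, nsmul_eq_mul, mul_inv_cancel₀ hc.ne']) hn
  unfold E
  rw [← Finset.mul_sum, ← Finset.mul_sum] at h
  rw [div_eq_inv_mul, div_eq_inv_mul]
  exact h

theorem E_sq (f : α → ℝ) : E f ^ 2 = E fun a => E fun b => f a * f b := by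
  have h : (fun a => E fun b => f a * f b) = fun a => E f * f a := by
    funext a
    rw [E_mul_left, mul_comm]
  rw [h, E_mul_left, sq]

end Mean

section Mix

variable {V : Type*} [Fintype V] [DecidableEq V]

/-- The assignment which is `z` on `A` and `x` elsewhere. -/
def mix (A : Finset V) (x z : V → Bool) : V → Bool := fun v => if v ∈ A then z v else x v

omit [Fintype V] in
theorem mix_mix (A : Finset V) (x y z : V → Bool) : mix A (mix A x y) z = mix A x z := by
  funext v
  unfold mix
  split_ifs <;> rfl

omit [Fintype V] in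
theorem mix_invol (A : Finset V) :
    Function.Involutive fun q : (V → Bool) × (V → Bool) => (mix A q.1 q.2, mix A q.2 q.1) := by
  rintro ⟨x, z⟩
  refine Prod.ext ?_ ?_
  · funext v
    simp only [mix]
    split_ifs <;> rfl
  · funext v
    simp only [mix]
    split_ifs <;> rfl

theorem E_mix (A : Finset V) (G : (V → Bool) → ℝ) :
    (E fun x => E fun z => G (mix A x z)) = E G := by
  have h1 : (∑ x : V → Bool, ∑ z : V → Bool, G (mix A x z)) =
      ∑ x : V → Bool, ∑ _z : V → Bool, G x := by
    have h2 := Fintype.sum_equiv (mix_invol A).toPerm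
      (fun q : (V → Bool) × (V → Bool) => G (mix A q.1 q.2)) (fun q => G q.1) fun q => rfl
    rw [Fintype.sum_prod_type, Fintype.sum_prod_type] at h2
    exact h2
  have hc : (0 : ℝ) < Fintype.card (V → Bool) := Nat.cast_pos.2 Fintype.card_pos
  unfold E
  rw [← Finset.sum_div, h1, Finset.sum_congr rfl fun x _ => Finset.sum_const _, Finset.card_univ,
    ← Finset.smul_sum, nsmul_eq_mul, mul_div_assoc, mul_div_assoc]
  field_simp

/-- One step: remove a factor which does not depend on the coordinates in `A`. -/
theorem remove (A : Finset V) (f g : (V → Bool) → ℝ) (hf : ∀ x z, f (mix A x z) = f x)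
    (h1 : ∀ x, |f x| ≤ 1) :
    (E fun x => f x * g x) ^ 2 ≤ E fun z => E fun x => g x * g (mix A x z) := by
  have e1 : (E fun x => f x * g x) = E fun x => f x * E fun z => g (mix A x z) := by
    rw [← E_mix A]
    refine congrArg E (funext fun x => ?_)
    rw [← E_mul_left]
    refine congrArg E (funext fun z => ?_)
    rw [hf]
  have e2 : (E fun x => f x * E fun z => g (mix A x z)) ^ 2 ≤
      E fun x => (E fun z => g (mix A x z)) ^ 2 := by
    refine (E_pow_le _ even_two).trans (E_mono fun x => ?_)
    rw [mul_pow]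
    refine mul_le_of_le_one_left (sq_nonneg _) ?_
    rw [sq_le_one_iff_abs_le_one]
    exact h1 x
  have e3 : (E fun x => (E fun z => g (mix A x z)) ^ 2) =
      E fun z => E fun x => g x * g (mix A x z) := by
    have e4 : (fun x => (E fun z => g (mix A x z)) ^ 2) =
        fun x => E fun z => E fun y => g (mix A x y) * g (mix A (mix A x y) z) := by
      funext x
      rw [E_sq, E_comm]
      refine congrArg E (funext fun z => congrArg E (funext fun y => ?_))
      rw [mix_mix]
    rw [e4, E_comm]
    refine congrArg E (funext fun z => ?_)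
    exact E_mix A fun x => g x * g (mix A x z)
  rw [e1]
  exact e2.trans_eq e3

/-- The iterated mean of the products over the cubes. -/
noncomputable def Q : List (Finset V) → ((V → Bool) → ℝ) → ℝ
  | [], g => E g
  | A :: l, g => E fun z => Q l fun x => g x * g (mix A x z)

/-- **The inequality of Babai, Nisan and Szegedy.** -/
theorem bns : ∀ (l : List (Finset V × ((V → Bool) → ℝ))) (g : (V → Bool) → ℝ),
    (∀ q ∈ l, (∀ x z, q.2 (mix q.1 x z) = q.2 x) ∧ ∀ x, |q.2 x| ≤ 1) →
    (E fun x => g x * (l.map fun q => q.2 x).prod) ^ 2 ^ l.length ≤ Q (l.map Prod.fst) g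
  | [], g, _ => by
    simp [Q]
  | q :: l, g, h => by
    have hq := h q (List.mem_cons_self)
    have hl : ∀ r ∈ l, (∀ x z, r.2 (mix r.1 x z) = r.2 x) ∧ ∀ x, |r.2 x| ≤ 1 :=
      fun r hr => h r (List.mem_cons_of_mem _ hr)
    have h1 : (E fun x => g x * ((q :: l).map fun q => q.2 x).prod) ^ 2 ≤
        E fun z => E fun x => (g x * (l.map fun q => q.2 x).prod) *
          (g (mix q.1 x z) * (l.map fun r => r.2 (mix q.1 x z)).prod) := by
      have e : (fun x => g x * ((q :: l).map fun q => q.2 x).prod) =
          fun x => q.2 x * (g x * (l.map fun q => q.2 x).prod) := by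
        funext x
        rw [List.map_cons, List.prod_cons]
        ring
      rw [e]
      exact remove q.1 q.2 _ hq.1 hq.2
    have h0 : 0 ≤ (E fun x => g x * ((q :: l).map fun q => q.2 x).prod) ^ 2 := sq_nonneg _
    rw [List.length_cons, pow_succ', pow_mul]
    refine (pow_le_pow_left₀ h0 h1 _).trans ?_
    rw [List.map_cons]
    show _ ≤ E fun z => Q (l.map Prod.fst) fun x => g x * g (mix q.1 x z)
    have h2 : (E fun z => E fun x => (g x * (l.map fun q => q.2 x).prod) *
          (g (mix q.1 x z) * (l.map fun r => r.2 (mix q.1 x z)).prod)) ^ 2 ^ l.length ≤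
        E fun z => (E fun x => (g x * (l.map fun q => q.2 x).prod) *
          (g (mix q.1 x z) * (l.map fun r => r.2 (mix q.1 x z)).prod)) ^ 2 ^ l.length := by
      rcases Nat.eq_zero_or_pos l.length with h3 | h3
      · rw [h3]
        simp
      · refine E_pow_le _ ?_
        rw [even_iff_two_dvd]
        exact dvd_pow_self 2 h3.ne'
    refine h2.trans (E_mono fun z => ?_)
    have h4 := bns (l.map fun r => (r.1, fun x => r.2 x * r.2 (mix q.1 x z)))
      (fun x => g x * g (mix q.1 x z)) ?_
    · rw [List.length_map, List.map_map] at h4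
      refine le_trans (le_of_eq ?_) h4
      congr 1
      refine congrArg E (funext fun x => ?_)
      rw [List.map_map]
      have e5 : (l.map ((fun q : Finset V × ((V → Bool) → ℝ) => q.2 x) ∘
          fun r => (r.1, fun x => r.2 x * r.2 (mix q.1 x z)))).prod =
          (l.map fun q => q.2 x).prod * (l.map fun r => r.2 (mix q.1 x z)).prod := by
        rw [← List.prod_map_mul]
        rfl
      rw [e5]
      ring
    · intro r hr
      obtain ⟨r0, hr0, rfl⟩ := List.mem_map.1 hr
      have h5 := hl r0 hr0
      refine ⟨fun x y => ?_, fun x => ?_⟩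
      · show r0.2 (mix r0.1 x y) * r0.2 (mix q.1 (mix r0.1 x y) z) = r0.2 x * r0.2 (mix q.1 x z)
        have e6 : mix q.1 (mix r0.1 x y) z = mix r0.1 (mix q.1 x z) (mix q.1 y z) := by
          funext v
          unfold mix
          split_ifs <;> rfl
        rw [e6, h5.1, h5.1]
      · show |r0.2 x * r0.2 (mix q.1 x z)| ≤ 1
        rw [abs_mul]
        exact mul_le_one₀ (h5.2 _) (abs_nonneg _) (h5.2 _)
  termination_by l => l.length

end Mix

end Vale.Agent.P336.R2.H836
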