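import Vale.Agent.P336.R2.H836.Spec
import Vale.Agent.P336.R2.H836.Mean

/-!
# P336: the form has small correlation with products of functions of limited views
-/

namespace Vale.Agent.P336.R2.H836

open Finset Polynomial

/-! ### Signs -/

/-- The sign of an element of the field with two elements. -/
def sgn2 (a : ZMod 2) : ℝ := if a = 0 then 1 else -1

theorem zmod2_cases (a : ZMod 2) : a = 0 ∨ a = 1 := by
  revert a
  decide

theorem sgn2_add (a b : ZMod 2) : sgn2 (a + b) = sgn2 a * sgn2 b := by
  rcases zmod2_cases a with rfl | rfl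
  · simp [sgn2]
  · rcases zmod2_cases b with rfl | rfl
    · simp [sgn2]
    · have h : (1 : ZMod 2) + 1 = 0 := by decide
      rw [h]
      simp [sgn2]

theorem sgn2_sum {ι : Type*} (s : Finset ι) (f : ι → ZMod 2) :
    sgn2 (∑ i ∈ s, f i) = ∏ i ∈ s, sgn2 (f i) := by
  classical
  induction s using Finset.induction_on with
  | empty => simp [sgn2]
  | insert a s ha ih => rw [Finset.sum_insert ha, Finset.prod_insert ha, sgn2_add, ih]

/-- The pairing of `s` with the coefficients of a polynomial. -/
noncomputable def pair {h : ℕ} (s : Fin h → Bool) (P : (ZMod 2)[X]) : ZMod 2 :=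
  ∑ d : Fin h, if s d = true then P.coeff (d : ℕ) else 0

theorem pair_add {h : ℕ} (s : Fin h → Bool) (P R : (ZMod 2)[X]) :
    pair s (P + R) = pair s P + pair s R := by
  unfold pair
  rw [← Finset.sum_add_distrib]
  refine Finset.sum_congr rfl fun d _ => ?_
  split_ifs
  · rw [coeff_add]
  · rw [add_zero]

theorem form_eq {p m h : ℕ} (s : Fin h → Bool) (x : Fin p × Fin m → Bool) :
    form s x = pair s (∏ i, blockPoly x i) := rfl

open Classical in
/-- The mean of the sign of the pairing. -/
theorem E_pair {h : ℕ} {P : (ZMod 2)[X]} (hP : P ∈ degreeLT (ZMod 2) h) :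
    (E fun s : Fin h → Bool => sgn2 (pair s P)) = if P = 0 then 1 else 0 := by
  have h1 : (∑ s : Fin h → Bool, sgn2 (pair s P)) =
      ∏ d : Fin h, ∑ b : Bool, sgn2 (if b = true then P.coeff (d : ℕ) else 0) := by
    rw [Finset.prod_univ_sum]
    rw [Fintype.piFinset_univ]
    refine Finset.sum_congr rfl fun s _ => ?_
    exact sgn2_sum _ _
  unfold E
  rw [h1]
  split_ifs with h0
  · rw [h0]
    have h2 : ∀ d : Fin h, (∑ b : Bool, sgn2 (if b = true then (0 : (ZMod 2)[X]).coeff (d : ℕ)
        else 0)) = 2 := by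
      intro d
      simp [sgn2]
    rw [Finset.prod_congr rfl fun d _ => h2 d, Finset.prod_const, Finset.card_univ,
      Fintype.card_fin]
    rw [Fintype.card_fun, Fintype.card_bool, Fintype.card_fin]
    push_cast
    exact div_self (by positivity)
  · obtain ⟨d, hd⟩ : ∃ d : ℕ, P.coeff d ≠ 0 := by
      by_contra hcon
      push Not at hcon
      exact h0 (Polynomial.ext fun n => by rw [hcon n, coeff_zero])
    have hdh : d < h := by
      by_contra hcon
      rw [mem_degreeLT] at hP
      exact hd (coeff_eq_zero_of_degree_lt (hP.trans_le (by exact_mod_cast not_lt.1 hcon)))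
    rw [Finset.prod_eq_zero (Finset.mem_univ (⟨d, hdh⟩ : Fin h)), zero_div]
    rcases zmod2_cases (P.coeff d) with h3 | h3
    · exact absurd h3 hd
    · simp [h3, sgn2]

/-! ### The iterated differences -/

section Diff

variable {V : Type*} [Fintype V] [DecidableEq V]

open Classical in
/-- The probability that the iterated difference vanishes. -/
noncomputable def R : List (Finset V) → ((V → Bool) → (ZMod 2)[X]) → ℝ
  | [], P => E fun x => if P x = 0 then 1 else 0
  | A :: l, P => E fun z => R l fun x => P x + P (mix A x z)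

theorem E_Q {h : ℕ} : ∀ (l : List (Finset V)) (P : (V → Bool) → (ZMod 2)[X]),
    (∀ x, P x ∈ degreeLT (ZMod 2) h) →
    (E fun s : Fin h → Bool => Q l fun x => sgn2 (pair s (P x))) = R l P
  | [], P, hP => by
    classical
    simp only [Q, R]
    rw [E_comm]
    refine congrArg E (funext fun x => ?_)
    rw [E_pair (hP x)]
  | A :: l, P, hP => by
    simp only [Q, R]
    rw [E_comm]
    refine congrArg E (funext fun z => ?_)
    rw [← E_Q l _ fun x => add_mem (hP x) (hP (mix A x z))]
    refine congrArg E (funext fun s => congrArg (Q l) (funext fun x => ?_))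
    rw [pair_add, sgn2_add]

end Diff

section Blocks

variable {p m : ℕ}

/-- The variables of a set in the block `i`. -/
def emb (i : Fin p) (A : Finset (Fin m)) : Finset (Fin p × Fin m) := A.image fun v => (i, v)

theorem mem_emb {i : Fin p} {A : Finset (Fin m)} {v : Fin p × Fin m} :
    v ∈ emb i A ↔ v.1 = i ∧ v.2 ∈ A := by
  unfold emb
  rw [Finset.mem_image]
  constructor
  · rintro ⟨w, hw, rfl⟩
    exact ⟨rfl, hw⟩
  · rintro ⟨h1, h2⟩
    exact ⟨v.2, h2, by rw [← h1]⟩

theorem card_emb (i : Fin p) (A : Finset (Fin m)) : (emb i A).card = A.card :=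
  Finset.card_image_of_injective _ fun _ _ h => (Prod.ext_iff.1 h).2

theorem blockPoly_coeff (x : Fin p × Fin m → Bool) (i : Fin p) (j : Fin m) :
    (blockPoly x i).coeff (j : ℕ) = if x (i, j) = true then 1 else 0 := by
  unfold blockPoly
  rw [finsetSum_coeff, Finset.sum_eq_single j]
  · split_ifs
    · rw [coeff_X_pow, if_pos rfl]
    · rw [coeff_zero]
  · intro b _ hb
    split_ifs
    · rw [coeff_X_pow, if_neg fun h => hb (Fin.ext h.symm)]
    · rw [coeff_zero]
  · exact fun h => absurd (Finset.mem_univ j) h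

theorem blockPoly_congr {x y : Fin p × Fin m → Bool} {i : Fin p}
    (h : ∀ j, x (i, j) = y (i, j)) : blockPoly x i = blockPoly y i := by
  unfold blockPoly
  refine Finset.sum_congr rfl fun j _ => ?_
  rw [h]

/-- If the difference of the block polynomials vanishes, the assignments agree on the set. -/
theorem agree_of_add_eq_zero {x z : Fin p × Fin m → Bool} {i : Fin p} {A : Finset (Fin m)}
    (h : blockPoly x i + blockPoly (mix (emb i A) x z) i = 0) :
    ∀ v ∈ emb i A, z v = x v := by
  rintro ⟨i', j⟩ hv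
  obtain ⟨rfl, hj⟩ := mem_emb.1 hv
  have h1 := congrArg (fun P : (ZMod 2)[X] => P.coeff (j : ℕ)) h
  simp only [coeff_add, coeff_zero] at h1
  rw [blockPoly_coeff, blockPoly_coeff] at h1
  have h2 : mix (emb i' A) x z (i', j) = z (i', j) := by
    unfold mix
    rw [if_pos hv]
  rw [h2] at h1
  revert h1
  cases x (i', j) <;> cases z (i', j) <;> simp

open Classical in
/-- The probability that two assignments agree on a set. -/
theorem E_agree {V : Type*} [Fintype V] [DecidableEq V] (A : Finset V) (x : V → Bool) :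
    (E fun z : V → Bool => if ∀ v ∈ A, z v = x v then (1 : ℝ) else 0) = (1 / 2) ^ A.card := by
  have h1 : (∑ z : V → Bool, if ∀ v ∈ A, z v = x v then (1 : ℝ) else 0) =
      ∏ v : V, ∑ b : Bool, if v ∈ A then (if b = x v then (1 : ℝ) else 0) else 1 := by
    rw [Finset.prod_univ_sum, Fintype.piFinset_univ]
    refine Finset.sum_congr rfl fun z _ => ?_
    by_cases h : ∀ v ∈ A, z v = x v
    · rw [if_pos h]
      refine (Finset.prod_eq_one fun v _ => ?_).symm
      by_cases hv : v ∈ A
      · rw [if_pos hv, if_pos (h v hv)]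
      · rw [if_neg hv]
    · rw [if_neg h]
      push Not at h
      obtain ⟨v, hv, hne⟩ := h
      refine (Finset.prod_eq_zero (Finset.mem_univ v) ?_).symm
      rw [if_pos hv, if_neg hne]
  have h2 : ∀ v : V, (∑ b : Bool, if v ∈ A then (if b = x v then (1 : ℝ) else 0) else 1) =
      2 * (if v ∈ A then 1 / 2 else 1) := by
    intro v
    by_cases hv : v ∈ A
    · simp [hv]
    · simp [hv]
  unfold E
  rw [h1, Finset.prod_congr rfl fun v _ => h2 v, Finset.prod_mul_distrib, Finset.prod_const,
    Finset.card_univ, Fintype.card_fun, Fintype.card_bool]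
  have h3 : (∏ v : V, if v ∈ A then (1 / 2 : ℝ) else 1) = (1 / 2) ^ A.card := by
    rw [Finset.prod_ite_mem, Finset.univ_inter, Finset.prod_const]
  rw [h3]
  push_cast
  rw [mul_comm, mul_div_assoc, div_self (by positivity), mul_one]

end Blocks
section Bound

variable {p m : ℕ}

open Classical in
theorem R_le (A : Fin p → Finset (Fin m)) : ∀ (l : List (Fin p)), l.Nodup →
    ∀ c : (Fin p × Fin m → Bool) → (ZMod 2)[X],
    (∀ x y : Fin p × Fin m → Bool, (∀ v, v.1 ∉ l → x v = y v) → c x = c y) →
    R (l.map fun i => emb i (A i)) (fun x => c x * (l.map fun i => blockPoly x i).prod) ≤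
      (E fun x => if c x = 0 then 1 else 0) + (l.map fun i => (1 / 2 : ℝ) ^ (A i).card).sum
  | [], _, c, _ => by
    simp [R]
  | i :: l, hnd, c, hc => by
    have hil : i ∉ l := (List.nodup_cons.1 hnd).1
    have hl : l.Nodup := (List.nodup_cons.1 hnd).2
    have h1 : ∀ z : Fin p × Fin m → Bool,
        (fun x => c x * ((i :: l).map fun i => blockPoly x i).prod +
          c (mix (emb i (A i)) x z) *
            ((i :: l).map fun i' => blockPoly (mix (emb i (A i)) x z) i').prod) =
        fun x => (c x * (blockPoly x i + blockPoly (mix (emb i (A i)) x z) i)) *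
          (l.map fun i => blockPoly x i).prod := by
      intro z
      funext x
      have e1 : c (mix (emb i (A i)) x z) = c x := by
        refine hc _ _ fun v hv => ?_
        unfold mix
        rw [if_neg fun h => hv (by rw [(mem_emb.1 h).1]; exact List.mem_cons_self)]
      have e2 : (l.map fun i' => blockPoly (mix (emb i (A i)) x z) i') =
          l.map fun i => blockPoly x i := by
        refine List.map_congr_left fun i' hi' => ?_
        refine blockPoly_congr fun j => ?_
        unfold mix
        rw [if_neg fun h => hil (by rw [← (mem_emb.1 h).1]; exact hi')]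
      rw [List.map_cons, List.prod_cons, List.map_cons, List.prod_cons, e1, e2]
      ring
    have h2 : ∀ z : Fin p × Fin m → Bool,
        R (l.map fun i => emb i (A i)) (fun x =>
          (c x * (blockPoly x i + blockPoly (mix (emb i (A i)) x z) i)) *
          (l.map fun i => blockPoly x i).prod) ≤
        (E fun x => (if c x = 0 then 1 else 0) +
          (if ∀ v ∈ emb i (A i), z v = x v then (1 : ℝ) else 0)) +
          (l.map fun i => (1 / 2 : ℝ) ^ (A i).card).sum := by
      intro z
      refine (R_le A l hl _ ?_).trans (add_le_add_left (E_mono fun x => ?_) _)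
      · intro x y hxy
        have e1 : c x = c y := hc x y fun v hv => hxy v fun h => hv (List.mem_cons_of_mem _ h)
        have e2 : blockPoly x i = blockPoly y i := blockPoly_congr fun j => hxy (i, j) hil
        have e3 : blockPoly (mix (emb i (A i)) x z) i = blockPoly (mix (emb i (A i)) y z) i := by
          refine blockPoly_congr fun j => ?_
          unfold mix
          rw [hxy (i, j) hil]
        rw [e1, e2, e3]
      · by_cases h3 : c x = 0
        · rw [if_pos h3, if_pos (by rw [h3, zero_mul])]
          have : (0 : ℝ) ≤ if ∀ v ∈ emb i (A i), z v = x v then (1 : ℝ) else 0 := by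
            split_ifs <;> norm_num
          linarith
        · rw [if_neg h3, zero_add]
          split_ifs with h4 h5 h5
          · exact le_rfl
          · refine absurd (agree_of_add_eq_zero ?_) h5
            exact (mul_eq_zero.1 h4).resolve_left h3
          · exact zero_le_one
          · exact le_rfl
    rw [List.map_cons, List.map_cons, List.sum_cons]
    show (E fun z => R (l.map fun i => emb i (A i)) fun x => _) ≤ _
    simp only [h1]
    refine (E_mono h2).trans (le_of_eq ?_)
    rw [E_add, E_const]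
    have h3 : (E fun z : Fin p × Fin m → Bool => E fun x : Fin p × Fin m → Bool =>
        (if c x = 0 then (1 : ℝ) else 0) + (if ∀ v ∈ emb i (A i), z v = x v then (1 : ℝ) else 0)) =
        (E fun x => if c x = 0 then 1 else 0) + (1 / 2 : ℝ) ^ (A i).card := by
      rw [E_comm]
      have h4 : (fun x : Fin p × Fin m → Bool => E fun z : Fin p × Fin m → Bool =>
          (if c x = 0 then (1 : ℝ) else 0) +
            (if ∀ v ∈ emb i (A i), z v = x v then (1 : ℝ) else 0)) =
          fun x => (if c x = 0 then 1 else 0) + (1 / 2 : ℝ) ^ (A i).card := by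
        funext x
        rw [E_add, E_const, E_agree, card_emb]
      rw [h4, E_add, E_const]
    rw [h3, add_assoc]

theorem prod_mem_degreeLT {h : ℕ} (hp : 1 ≤ p) (hm : p * m ≤ h) (hm1 : 1 ≤ m)
    (x : Fin p × Fin m → Bool) : (∏ i, blockPoly x i) ∈ degreeLT (ZMod 2) h := by
  have h1 : ∀ i, (blockPoly x i).natDegree ≤ m - 1 := by
    intro i
    unfold blockPoly
    refine natDegree_sum_le_of_forall_le _ _ fun j _ => ?_
    split_ifs
    · rw [natDegree_X_pow]
      have := j.isLt
      omega
    · simp
  have h2 : (∏ i, blockPoly x i).natDegree ≤ p * (m - 1) := by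
    refine (natDegree_prod_le _ _).trans ?_
    refine (Finset.sum_le_sum fun i _ => h1 i).trans (le_of_eq ?_)
    rw [Finset.sum_const, Finset.card_univ, Fintype.card_fin, smul_eq_mul]
  rw [mem_degreeLT]
  refine (degree_le_natDegree).trans_lt ?_
  have h3 : p * (m - 1) < h := by
    refine lt_of_lt_of_le ?_ hm
    exact Nat.mul_lt_mul_of_pos_left (by omega) (by omega)
  exact_mod_cast h2.trans_lt h3

/-- **The correlation bound.** -/
theorem corr_le {h a : ℕ} (hp : 1 ≤ p) (hm : p * m ≤ h) (hm1 : 1 ≤ m)
    (A : Fin p → Finset (Fin m))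
    (hA : ∀ i, a ≤ (A i).card) (H : Fin p → (Fin h → Bool) → (Fin p × Fin m → Bool) → ℝ)
    (hH1 : ∀ i s x, |H i s x| ≤ 1)
    (hH2 : ∀ i s x z, H i s (mix (emb i (A i)) x z) = H i s x) :
    (E fun s => E fun x => sgn2 (form s x) * ∏ i, H i s x) ^ 2 ^ p ≤ p * (1 / 2 : ℝ) ^ a := by
  classical
  have heven : Even (2 ^ p) := by
    rw [even_iff_two_dvd]
    exact dvd_pow_self 2 (by omega)
  have h1 : ∀ s : Fin h → Bool, (E fun x => sgn2 (form s x) * ∏ i, H i s x) ^ 2 ^ p ≤
      Q ((List.finRange p).map fun i => emb i (A i)) fun x =>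
        sgn2 (pair s (∏ i, blockPoly x i)) := by
    intro s
    have h2 := bns ((List.finRange p).map fun i => (emb i (A i), H i s))
      (fun x => sgn2 (pair s (∏ i, blockPoly x i))) ?_
    · rw [List.length_map, List.length_finRange, List.map_map] at h2
      refine le_trans (le_of_eq ?_) h2
      congr 1
      refine congrArg E (funext fun x => ?_)
      rw [List.map_map, Fin.prod_univ_def]
      rfl
    · intro q hq
      obtain ⟨i, _, rfl⟩ := List.mem_map.1 hq
      exact ⟨fun x z => hH2 i s x z, fun x => hH1 i s x⟩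
  refine (E_pow_le _ heven).trans ((E_mono h1).trans ?_)
  rw [E_Q _ _ fun x => prod_mem_degreeLT hp hm hm1 x]
  have h3 := R_le A (List.finRange p) (List.nodup_finRange p) (fun _ => 1) fun _ _ _ => rfl
  have h4 : (fun x : Fin p × Fin m → Bool => ∏ i, blockPoly x i) =
      fun x => 1 * ((List.finRange p).map fun i => blockPoly x i).prod := by
    funext x
    rw [one_mul, Fin.prod_univ_def]
  rw [h4]
  refine h3.trans ?_
  have h5 : (E fun _ : Fin p × Fin m → Bool =>
      if (1 : (ZMod 2)[X]) = 0 then (1 : ℝ) else 0) = 0 := by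
    rw [E_const, if_neg one_ne_zero]
  rw [h5, zero_add, ← Fin.sum_univ_def]
  refine (Finset.sum_le_sum fun i _ => pow_le_pow_of_le_one (by norm_num) (by norm_num)
    (hA i)).trans (le_of_eq ?_)
  rw [Finset.sum_const, Finset.card_univ, Fintype.card_fin, nsmul_eq_mul]

open Classical in
/-- If the form (or its complement) is a disjunction of gates which have small correlation with
the form, and if the form is nearly unbiased, then there are many gates. -/
theorem gates_bound {h : ℕ} {γ : Type*} [Fintype γ]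
    (G : γ → (Fin h → Bool) → (Fin p × Fin m → Bool) → Prop)
    (b : ZMod 2) (hf : ∀ s x, (∃ g, G g s x) ↔ form s x = b) {β : ℝ}
    (h1 : ∀ g, |E fun s => E fun x => sgn2 (form s x) * if G g s x then (1 : ℝ) else 0| ≤ β)
    (h2 : |E fun s : Fin h → Bool => E fun x : Fin p × Fin m → Bool => sgn2 (form s x)| ≤ β) :
    (1 : ℝ) ≤ (2 * Fintype.card γ + 1) * β := by
  have hb1 : |sgn2 b| = 1 := by
    unfold sgn2
    split_ifs <;> simp
  have h1' : ∀ g, (E fun s => E fun x => if G g s x then (1 : ℝ) else 0) ≤ β := by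
    intro g
    have h2 := h1 g
    have h3 : ∀ s x, (sgn2 (form s x) * if G g s x then (1 : ℝ) else 0) =
        sgn2 b * if G g s x then (1 : ℝ) else 0 := by
      intro s x
      by_cases h4 : G g s x
      · rw [if_pos h4, (hf s x).1 ⟨g, h4⟩]
      · rw [if_neg h4, mul_zero, mul_zero]
    simp only [h3, E_mul_left] at h2
    rw [abs_mul, hb1, one_mul] at h2
    exact (le_abs_self _).trans h2
  have h3 : ∀ (s : Fin h → Bool) (x : Fin p × Fin m → Bool),
      1 + sgn2 b * sgn2 (form s x) ≤ 2 * ∑ g, if G g s x then (1 : ℝ) else 0 := by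
    intro s x
    by_cases h4 : form s x = b
    · obtain ⟨g, hg⟩ := (hf s x).2 h4
      have h5 : (1 : ℝ) ≤ ∑ g, if G g s x then (1 : ℝ) else 0 := by
        refine le_trans (by rw [if_pos hg]) (Finset.single_le_sum
          (f := fun g => if G g s x then (1 : ℝ) else 0) (fun g _ => ?_) (Finset.mem_univ g))
        split_ifs <;> norm_num
      have h6 : sgn2 b * sgn2 (form s x) = 1 := by
        rw [h4]
        unfold sgn2
        split_ifs <;> norm_num
      linarith
    · have h5 : (0 : ℝ) ≤ ∑ g, if G g s x then (1 : ℝ) else 0 :=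
        Finset.sum_nonneg fun g _ => by split_ifs <;> norm_num
      have h6 : sgn2 b * sgn2 (form s x) = -1 := by
        revert h4
        rcases zmod2_cases (form s x) with h7 | h7 <;> rcases zmod2_cases b with h8 | h8 <;>
          rw [h7, h8] <;> simp [sgn2]
      linarith
  have h4 : 1 + sgn2 b * (E fun s : Fin h → Bool => E fun x : Fin p × Fin m → Bool =>
      sgn2 (form s x)) ≤ 2 * ∑ g, E fun s => E fun x => if G g s x then (1 : ℝ) else 0 := by
    have h5 := E_mono fun s : Fin h → Bool => E_mono (h3 s)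
    simp only [E_add, E_const, E_mul_left, E_sum] at h5
    exact h5
  have h5 : ∑ g, (E fun s => E fun x => if G g s x then (1 : ℝ) else 0) ≤
      Fintype.card γ * β := by
    refine (Finset.sum_le_sum fun g _ => h1' g).trans (le_of_eq ?_)
    rw [Finset.sum_const, Finset.card_univ, nsmul_eq_mul]
  have h7 : -β ≤ sgn2 b * (E fun s : Fin h → Bool => E fun x : Fin p × Fin m → Bool =>
      sgn2 (form s x)) := by
    refine (neg_le_neg ?_).trans (neg_abs_le _)
    rw [abs_mul, hb1, one_mul]
    exact h2
  linarith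

/-- The correlation bound, without powers. -/
theorem abs_corr_le {h a : ℕ} (hp : 1 ≤ p) (hm : p * m ≤ h) (hm1 : 1 ≤ m)
    (A : Fin p → Finset (Fin m))
    (hA : ∀ i, a ≤ (A i).card) (H : Fin p → (Fin h → Bool) → (Fin p × Fin m → Bool) → ℝ)
    (hH1 : ∀ i s x, |H i s x| ≤ 1)
    (hH2 : ∀ i s x z, H i s (mix (emb i (A i)) x z) = H i s x) {β : ℝ} (hβ0 : 0 ≤ β)
    (hβ : p * (1 / 2 : ℝ) ^ a ≤ β ^ 2 ^ p) :
    |E fun s => E fun x => sgn2 (form s x) * ∏ i, H i s x| ≤ β := by
  have hn : (2 ^ p : ℕ) ≠ 0 := by positivity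
  have heven : Even (2 ^ p) := by
    rw [even_iff_two_dvd]
    exact dvd_pow_self 2 (by omega)
  have ht := (corr_le hp hm hm1 A hA H hH1 hH2).trans hβ
  rw [← heven.pow_abs] at ht
  exact (pow_le_pow_iff_left₀ (abs_nonneg _) hβ0 hn).1 ht

/-- The form is nearly unbiased. -/
theorem abs_bias_le {h a : ℕ} (hp : 1 ≤ p) (hm : p * m ≤ h) (hm1 : 1 ≤ m) (ha : a ≤ m)
    {β : ℝ} (hβ0 : 0 ≤ β) (hβ : p * (1 / 2 : ℝ) ^ a ≤ β ^ 2 ^ p) :
    |E fun s : Fin h → Bool => E fun x : Fin p × Fin m → Bool => sgn2 (form s x)| ≤ β := by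
  have h3 := abs_corr_le (h := h) hp hm hm1 (fun _ => Finset.univ)
    (fun i => by rw [Finset.card_univ, Fintype.card_fin]; exact ha) (fun _ _ _ => 1)
    (fun _ _ _ => by simp) (fun _ _ _ _ => rfl) hβ0 hβ
  simpa using h3

open Classical in
/-- **The core.**  If the form (or its complement) is a disjunction of gates, and every gate is a
conjunction of `p` functions, the `i`-th of which does not depend on at least `a` variables of
the block `i`, then there are many gates. -/
theorem core {h a : ℕ} (hp : 1 ≤ p) (hm : p * m ≤ h) (hm1 : 1 ≤ m) (ha : a ≤ m) {γ : Type*}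
    [Fintype γ]
    (G : γ → (Fin h → Bool) → (Fin p × Fin m → Bool) → Prop)
    (hG : ∀ g, ∃ (A : Fin p → Finset (Fin m))
      (H : Fin p → (Fin h → Bool) → (Fin p × Fin m → Bool) → Prop),
      (∀ i, a ≤ (A i).card) ∧
      (∀ i s x z, H i s (mix (emb i (A i)) x z) ↔ H i s x) ∧
      ∀ s x, (G g s x ↔ ∀ i, H i s x))
    (b : ZMod 2) (hf : ∀ s x, (∃ g, G g s x) ↔ form s x = b) :
    (2 : ℝ) ^ a ≤ p * (2 * Fintype.card γ + 1) ^ 2 ^ p := by
  have hn : (2 ^ p : ℕ) ≠ 0 := by positivity
  obtain ⟨β, hβ0, hβ⟩ : ∃ β : ℝ, 0 ≤ β ∧ β ^ 2 ^ p = p * (1 / 2 : ℝ) ^ a := by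
    refine ⟨(p * (1 / 2 : ℝ) ^ a) ^ (((2 ^ p : ℕ) : ℝ)⁻¹), by positivity, ?_⟩
    exact Real.rpow_inv_natCast_pow (by positivity) hn
  have h1 : ∀ g, |E fun s => E fun x => sgn2 (form s x) * if G g s x then (1 : ℝ) else 0| ≤
      β := by
    intro g
    obtain ⟨A, H, hA, hH, hGH⟩ := hG g
    have h2 := abs_corr_le hp hm hm1 A hA (fun i s x => if H i s x then (1 : ℝ) else 0)
      (fun i s x => by split_ifs <;> simp)
      (fun i s x z => by rw [if_congr (hH i s x z) rfl rfl]) hβ0 hβ.ge
    have h3 : ∀ s x, (∏ i, (if H i s x then (1 : ℝ) else 0)) = if G g s x then (1 : ℝ) else 0 := by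
      intro s x
      by_cases h4 : G g s x
      · rw [if_pos h4, Finset.prod_eq_one fun i _ => if_pos ((hGH s x).1 h4 i)]
      · rw [if_neg h4]
        have h5 : ¬ ∀ i, H i s x := fun h => h4 ((hGH s x).2 h)
        push Not at h5
        obtain ⟨i, hi⟩ := h5
        exact Finset.prod_eq_zero (Finset.mem_univ i) (if_neg hi)
    simp only [h3] at h2
    exact h2
  have h6 := gates_bound G b hf h1 (abs_bias_le hp hm hm1 ha hβ0 hβ.ge)
  have h7 : (1 : ℝ) ≤ (2 * Fintype.card γ + 1) ^ 2 ^ p * (p * (1 / 2 : ℝ) ^ a) := by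
    rw [← hβ, ← mul_pow]
    exact one_le_pow₀ h6
  have h8 : (2 : ℝ) ^ a * (1 / 2) ^ a = 1 := by
    rw [← mul_pow]
    norm_num
  calc (2 : ℝ) ^ a = 2 ^ a * 1 := (mul_one _).symm
    _ ≤ 2 ^ a * ((2 * Fintype.card γ + 1) ^ 2 ^ p * (p * (1 / 2 : ℝ) ^ a)) :=
        mul_le_mul_of_nonneg_left h7 (by positivity)
    _ = p * (2 * Fintype.card γ + 1) ^ 2 ^ p * (2 ^ a * (1 / 2) ^ a) := by ring
    _ = _ := by rw [h8, mul_one]

end Bound

end Vale.Agent.P336.R2.H836
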