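import Vale.Agent.P336.R2.H836.Except

/-!
# P336: a few exceptional bottom gates, narrow bottom gates, and limited views
-/

namespace Vale.Agent.P336

/-- The middle gate `j` has limited views up to `e` exceptional and arbitrarily many narrow bottom
gates: there are sets of variables `V 0, …, V (J - 1)`, each with at most `k` elements, the sum of
their sizes is at most `W`, and every bottom gate which `j` reads, with at most `e` exceptions,
reads at most `r` variables or only reads variables of one of the sets. -/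
def Circuit.AlmostViewed {n : ℕ} (C : Circuit n) (e r k W : ℕ) (j : Fin C.middle) : Prop :=
  ∃ (X : Finset (Fin C.bottom)) (J : ℕ) (V : Fin J → Finset (Fin n)), X.card ≤ e ∧
    (∀ t, (V t).card ≤ k) ∧ ∑ t, (V t).card ≤ W ∧
    ∀ b ∈ C.conj j, b ∈ X ∨ (C.vars b).encard ≤ r ∨ ∃ t, C.vars b ⊆ V t

open Classical in
/-- The middle gate `j` has `p`-local views up to `e` exceptional and arbitrarily many narrow
bottom gates: there are sets of variables with at most `k` elements, every variable belongs to at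
most `w` of them, and every bottom gate which `j` reads, with at most `e` exceptions, reads at most
`r` variables or only reads variables of the union of at most `p` of the sets. -/
def Circuit.AlmostLocal {n : ℕ} (C : Circuit n) (e r p k w : ℕ) (j : Fin C.middle) : Prop :=
  ∃ (X : Finset (Fin C.bottom)) (J : ℕ) (V : Fin J → Finset (Fin n)), X.card ≤ e ∧
    (∀ t, (V t).card ≤ k) ∧ (∀ v, (Finset.univ.filter fun t => v ∈ V t).card ≤ w) ∧
    ∀ b ∈ C.conj j, b ∈ X ∨ (C.vars b).encard ≤ r ∨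
      ∃ T : Finset (Fin J), T.card ≤ p ∧ ∀ v ∈ C.vars b, ∃ t ∈ T, v ∈ V t

end Vale.Agent.P336

namespace Vale.Agent.P336.R2.H836

open Vale.Agent.P336

theorem reduce_viewed {N e r k W : ℕ} (hr : 1 ≤ r) (C : Circuit N)
    (hC : ∀ j ∈ C.top, C.AlmostViewed e r k W j) :
    ∃ C' : Circuit N, (∀ x, C'.Accepts x ↔ C.Accepts x) ∧
      C'.middle ≤ C.middle * (2 * N + 2) ^ e ∧ ∀ j ∈ C'.top, C'.WideViewed r k W j := by
  classical
  have hX : ∀ j, ∃ X : Finset (Fin C.bottom), X.card ≤ e ∧ (j ∈ C.top → ∃ (J : ℕ)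
      (V : Fin J → Finset (Fin N)), (∀ t, (V t).card ≤ k) ∧ ∑ t, (V t).card ≤ W ∧
      ∀ b ∈ C.conj j, b ∈ X ∨ (C.vars b).encard ≤ r ∨ ∃ t, C.vars b ⊆ V t) := by
    intro j
    by_cases hj : j ∈ C.top
    · obtain ⟨X, J, V, hXe, h⟩ := hC j hj
      exact ⟨X, hXe, fun _ => ⟨J, V, h⟩⟩
    · exact ⟨∅, by simp, fun h => absurd h hj⟩
  choose X hXe hXV using hX
  obtain ⟨C', hacc, hmid, hcon⟩ := exists_reduced C X hXe
  refine ⟨C', hacc, hmid, fun j' hj' => ?_⟩
  obtain ⟨j, hj, hb⟩ := hcon j' hj'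
  obtain ⟨J, V, hVk, hVW, hVb⟩ := hXV j hj
  refine ⟨J, V, hVk, hVW, fun b' hb' => ?_⟩
  rcases hb b' hb' with h1 | ⟨b, hbj, hbX, hv⟩
  · refine Or.inl (h1.trans ?_)
    exact_mod_cast hr
  · rw [hv]
    rcases hVb b hbj with h2 | h2
    · exact absurd h2 hbX
    · exact h2

theorem reduce_local {N e r p k w : ℕ} (hr : 1 ≤ r) (C : Circuit N)
    (hC : ∀ j ∈ C.top, C.AlmostLocal e r p k w j) :
    ∃ C' : Circuit N, (∀ x, C'.Accepts x ↔ C.Accepts x) ∧
      C'.middle ≤ C.middle * (2 * N + 2) ^ e ∧ ∀ j ∈ C'.top, C'.WideLocal r p k w j := by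
  classical
  have hX : ∀ j, ∃ X : Finset (Fin C.bottom), X.card ≤ e ∧ (j ∈ C.top → ∃ (J : ℕ)
      (V : Fin J → Finset (Fin N)), (∀ t, (V t).card ≤ k) ∧
      (∀ v, (Finset.univ.filter fun t => v ∈ V t).card ≤ w) ∧
      ∀ b ∈ C.conj j, b ∈ X ∨ (C.vars b).encard ≤ r ∨
        ∃ T : Finset (Fin J), T.card ≤ p ∧ ∀ v ∈ C.vars b, ∃ t ∈ T, v ∈ V t) := by
    intro j
    by_cases hj : j ∈ C.top
    · obtain ⟨X, J, V, hXe, h1, h2, h3⟩ := hC j hj
      refine ⟨X, hXe, fun _ => ⟨J, V, h1, fun v => ?_, h3⟩⟩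
      refine le_trans (le_of_eq ?_) (h2 v)
      congr 1
    · exact ⟨∅, by simp, fun h => absurd h hj⟩
  choose X hXe hXV using hX
  obtain ⟨C', hacc, hmid, hcon⟩ := exists_reduced C X hXe
  refine ⟨C', hacc, hmid, fun j' hj' => ?_⟩
  obtain ⟨j, hj, hb⟩ := hcon j' hj'
  obtain ⟨J, V, hVk, hVW, hVb⟩ := hXV j hj
  refine ⟨J, V, hVk, fun v => ?_, fun b' hb' => ?_⟩
  · refine le_trans (le_of_eq ?_) (hVW v)
    congr 1
  · rcases hb b' hb' with h1 | ⟨b, hbj, hbX, hv⟩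
    · refine Or.inl (h1.trans ?_)
      exact_mod_cast hr
    · rw [hv]
      rcases hVb b hbj with h2 | h2
      · exact absurd h2 hbX
      · exact h2

/-- The numbers: dividing by `(2 N + 2) ^ e` costs a factor two in the exponent. -/
theorem absorb {N e M M' : ℕ} {Z : ℝ} (hZ : 0 < Z) (hN : 2 ≤ N)
    (h1 : (2 : ℝ) ^ ((N : ℝ) / Z) ≤ M') (h2 : M' ≤ M * (2 * N + 2) ^ e)
    (he : (e : ℝ) * Real.log N * (16 * Z) ≤ N) : (2 : ℝ) ^ ((N : ℝ) / (16 * Z)) ≤ M := by
  have hN' : (2 : ℝ) ≤ N := by exact_mod_cast hN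
  have hlog2 : 0 < Real.log 2 := Real.log_pos (by norm_num)
  have hlogN : Real.log 2 ≤ Real.log N := Real.log_le_log (by norm_num) hN'
  -- `2 N + 2 ≤ 2 ^ (5 log N)`
  have h3 : (2 * N + 2 : ℝ) ≤ (2 : ℝ) ^ (5 * Real.log N) := by
    have h31 : (2 * N + 2 : ℝ) ≤ (N : ℝ) ^ 3 := by nlinarith [mul_nonneg (sub_nonneg.2 hN') (sub_nonneg.2 hN'), sq_nonneg ((N : ℝ) - 2)]
    have h32 : (0.69 : ℝ) < Real.log 2 := by
      have := Real.log_two_gt_d9
      linarith
    have h33 : (N : ℝ) ^ 3 = Real.exp (3 * Real.log N) := by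
      rw [show (3 : ℝ) * Real.log N = Real.log ((N : ℝ) ^ 3) by rw [Real.log_pow]; norm_num,
        Real.exp_log (by positivity)]
    rw [Real.rpow_def_of_pos (by norm_num)]
    refine h31.trans ?_
    rw [h33]
    refine Real.exp_le_exp.2 ?_
    nlinarith
  have h4 : ((2 * N + 2 : ℝ)) ^ e ≤ (2 : ℝ) ^ ((N : ℝ) / (2 * Z)) := by
    calc ((2 * N + 2 : ℝ)) ^ e ≤ ((2 : ℝ) ^ (5 * Real.log N)) ^ e :=
          pow_le_pow_left₀ (by positivity) h3 e
      _ = (2 : ℝ) ^ (5 * Real.log N * e) := by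
          rw [← Real.rpow_natCast, ← Real.rpow_mul (by norm_num)]
      _ ≤ (2 : ℝ) ^ ((N : ℝ) / (2 * Z)) := by
          refine Real.rpow_le_rpow_of_exponent_le (by norm_num) ?_
          rw [le_div_iff₀ (by positivity)]
          linarith
  have h5 : (2 : ℝ) ^ ((N : ℝ) / Z) = (2 : ℝ) ^ ((N : ℝ) / (2 * Z)) * (2 : ℝ) ^ ((N : ℝ) / (2 * Z)) := by
    rw [← Real.rpow_add (by norm_num)]
    congr 1
    field_simp
    ring
  have h6 : (2 : ℝ) ^ ((N : ℝ) / (2 * Z)) * (2 : ℝ) ^ ((N : ℝ) / (2 * Z)) ≤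
      M * (2 : ℝ) ^ ((N : ℝ) / (2 * Z)) := by
    rw [← h5]
    refine h1.trans ?_
    have h7 : (M' : ℝ) ≤ M * (2 * N + 2) ^ e := by exact_mod_cast h2
    exact h7.trans (mul_le_mul_of_nonneg_left h4 (Nat.cast_nonneg M))
  have h7 : (2 : ℝ) ^ ((N : ℝ) / (2 * Z)) ≤ M :=
    le_of_mul_le_mul_right h6 (by positivity)
  refine le_trans (Real.rpow_le_rpow_of_exponent_le (by norm_num) ?_) h7
  refine div_le_div_of_nonneg_left (by positivity) (by positivity) ?_
  linarith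

end Vale.Agent.P336.R2.H836
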