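import Vale.Agent.P336.R2.H836.Almost
import Vale.Agent.P336.R2.H444.WideMain
import Vale.Agent.P336.R2.H444.WideLocalMain

/-!
# P336: the lower bounds for circuits almost all of whose wide bottom gates have limited views
-/

namespace Vale.Agent.P336.R2.H836

open Vale.Agent.P336

theorem almost_main : ∃ C₀ : ℝ, ∀ N w k r e : ℕ, 1 ≤ w → 1 ≤ k → 1 ≤ r →
    (k : ℝ) * (2 : ℝ) ^ (C₀ * Real.sqrt w) ≤ N → (r : ℝ) * (2 : ℝ) ^ (C₀ * Real.sqrt w) ≤ N →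
    (e : ℝ) * Real.log N * (r * (2 : ℝ) ^ (C₀ * Real.sqrt w)) ≤ N →
    ∀ C : Circuit N, (∀ j ∈ C.top, C.AlmostViewed e r k (w * N) j) →
    ((∀ x, C.Accepts x ↔ slice lang N x = true) ∨ (∀ x, C.Accepts x ↔ slice lang N x = false)) →
    (2 : ℝ) ^ ((N : ℝ) / (r * (2 : ℝ) ^ (C₀ * Real.sqrt w))) ≤ C.middle := by
  obtain ⟨C₀, hC₀⟩ := H444.wide_main
  refine ⟨max C₀ 0 + 4, fun N w k r e hw hk hr hkN hrN heN C hV hC => ?_⟩
  have hw1 : (1 : ℝ) ≤ Real.sqrt w := by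
    rw [Real.one_le_sqrt]
    exact_mod_cast hw
  have hr1 : (1 : ℝ) ≤ r := by exact_mod_cast hr
  have hmax : C₀ * Real.sqrt w ≤ max C₀ 0 * Real.sqrt w :=
    mul_le_mul_of_nonneg_right (le_max_left _ _) (Real.sqrt_nonneg _)
  have hmax0 : 0 ≤ max C₀ 0 * Real.sqrt w := mul_nonneg (le_max_right _ _) (Real.sqrt_nonneg _)
  have h16 : 16 * (2 : ℝ) ^ (C₀ * Real.sqrt w) ≤ (2 : ℝ) ^ ((max C₀ 0 + 4) * Real.sqrt w) := by
    have e1 : (16 : ℝ) = (2 : ℝ) ^ (4 : ℝ) := by norm_num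
    rw [e1, ← Real.rpow_add (by norm_num)]
    refine Real.rpow_le_rpow_of_exponent_le (by norm_num) ?_
    linarith
  have hpos : (0 : ℝ) < (2 : ℝ) ^ (C₀ * Real.sqrt w) := by positivity
  have hle : (2 : ℝ) ^ (C₀ * Real.sqrt w) ≤ (2 : ℝ) ^ ((max C₀ 0 + 4) * Real.sqrt w) := by linarith
  have hZ : 0 < (r : ℝ) * (2 : ℝ) ^ (C₀ * Real.sqrt w) := by positivity
  have hZ16 : 16 * ((r : ℝ) * (2 : ℝ) ^ (C₀ * Real.sqrt w)) ≤
      r * (2 : ℝ) ^ ((max C₀ 0 + 4) * Real.sqrt w) := by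
    calc 16 * ((r : ℝ) * (2 : ℝ) ^ (C₀ * Real.sqrt w)) =
          r * (16 * (2 : ℝ) ^ (C₀ * Real.sqrt w)) := by ring
      _ ≤ _ := mul_le_mul_of_nonneg_left h16 (by positivity)
  obtain ⟨C', hacc, hmid, hV'⟩ := reduce_viewed hr C hV
  have hC' : (∀ x, C'.Accepts x ↔ slice lang N x = true) ∨
      (∀ x, C'.Accepts x ↔ slice lang N x = false) := by
    rcases hC with h | h
    · exact Or.inl fun x => (hacc x).trans (h x)
    · exact Or.inr fun x => (hacc x).trans (h x)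
  have h1 := hC₀ N w k r hw hk hr
    ((mul_le_mul_of_nonneg_left hle (Nat.cast_nonneg k)).trans hkN)
    ((mul_le_mul_of_nonneg_left hle (Nat.cast_nonneg r)).trans hrN) C' hV' hC'
  by_cases hN : 2 ≤ N
  · have h2 := absorb hZ hN h1 hmid (le_trans (mul_le_mul_of_nonneg_left hZ16
      (mul_nonneg (Nat.cast_nonneg e) (Real.log_natCast_nonneg N))) heN)
    refine le_trans (Real.rpow_le_rpow_of_exponent_le (by norm_num) ?_) h2
    exact div_le_div_of_nonneg_left (Nat.cast_nonneg N) (by positivity) hZ16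
  · exfalso
    have hN1 : (N : ℝ) ≤ 1 := by exact_mod_cast (by omega : N ≤ 1)
    have h3 : (16 : ℝ) ≤ (2 : ℝ) ^ ((max C₀ 0 + 4) * Real.sqrt w) := by
      have e1 : (16 : ℝ) = (2 : ℝ) ^ (4 : ℝ) := by norm_num
      rw [e1]
      refine Real.rpow_le_rpow_of_exponent_le (by norm_num) ?_
      linarith
    have h4 : (16 : ℝ) ≤ r * (2 : ℝ) ^ ((max C₀ 0 + 4) * Real.sqrt w) := by
      calc (16 : ℝ) = 1 * 16 := by norm_num
        _ ≤ _ := mul_le_mul hr1 h3 (by norm_num) (by positivity)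
    linarith

theorem almost_local_main : ∃ K : ℕ, ∀ N w k p r e : ℕ, 1 ≤ w → 1 ≤ k → 1 ≤ p → 1 ≤ r →
    k * (2 ^ p * (p + 1) ^ w) ^ K ≤ N → r * (2 ^ p * (p + 1) ^ w) ^ K ≤ N →
    (e : ℝ) * Real.log N * (r * ((2 : ℝ) ^ p * (p + 1) ^ w) ^ K) ≤ N →
    ∀ C : Circuit N, (∀ j ∈ C.top, C.AlmostLocal e r p k w j) →
    ((∀ x, C.Accepts x ↔ slice lang N x = true) ∨ (∀ x, C.Accepts x ↔ slice lang N x = false)) →
    (2 : ℝ) ^ ((N : ℝ) / (r * ((2 : ℝ) ^ p * (p + 1) ^ w) ^ K)) ≤ C.middle := by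
  obtain ⟨K, hK⟩ := H444.wide_local_main
  refine ⟨K + 4, fun N w k p r e hw hk hp hr hkN hrN heN C hV hC => ?_⟩
  have hz : 2 ≤ 2 ^ p * (p + 1) ^ w := by
    calc 2 = 2 ^ 1 * 1 := by norm_num
      _ ≤ 2 ^ p * (p + 1) ^ w := Nat.mul_le_mul (Nat.pow_le_pow_right (by norm_num) hp)
          (Nat.one_le_pow _ _ (by omega))
  have hz16 : 16 ≤ (2 ^ p * (p + 1) ^ w) ^ 4 := by
    calc 16 = 2 ^ 4 := by norm_num
      _ ≤ _ := Nat.pow_le_pow_left hz 4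
  have hle : (2 ^ p * (p + 1) ^ w) ^ K ≤ (2 ^ p * (p + 1) ^ w) ^ (K + 4) :=
    Nat.pow_le_pow_right (by omega) (by omega)
  have hZ : (0 : ℝ) < r * ((2 : ℝ) ^ p * (p + 1) ^ w) ^ K := by
    have : (1 : ℝ) ≤ r := by exact_mod_cast hr
    positivity
  have hZ16 : 16 * ((r : ℝ) * ((2 : ℝ) ^ p * (p + 1) ^ w) ^ K) ≤
      r * ((2 : ℝ) ^ p * (p + 1) ^ w) ^ (K + 4) := by
    have h1 : (16 : ℝ) ≤ ((2 : ℝ) ^ p * (p + 1) ^ w) ^ 4 := by exact_mod_cast hz16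
    rw [pow_add]
    calc 16 * ((r : ℝ) * ((2 : ℝ) ^ p * (p + 1) ^ w) ^ K) =
          (r * ((2 : ℝ) ^ p * (p + 1) ^ w) ^ K) * 16 := by ring
      _ ≤ (r * ((2 : ℝ) ^ p * (p + 1) ^ w) ^ K) * ((2 : ℝ) ^ p * (p + 1) ^ w) ^ 4 :=
          mul_le_mul_of_nonneg_left h1 hZ.le
      _ = _ := by ring
  obtain ⟨C', hacc, hmid, hV'⟩ := reduce_local hr C hV
  have hC' : (∀ x, C'.Accepts x ↔ slice lang N x = true) ∨
      (∀ x, C'.Accepts x ↔ slice lang N x = false) := by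
    rcases hC with h | h
    · exact Or.inl fun x => (hacc x).trans (h x)
    · exact Or.inr fun x => (hacc x).trans (h x)
  have h1 := hK N w k p r hw hk hp hr ((Nat.mul_le_mul_left k hle).trans hkN)
    ((Nat.mul_le_mul_left r hle).trans hrN) C' hV' hC'
  have hN : 2 ≤ N := by
    have h2 : 16 ≤ (2 ^ p * (p + 1) ^ w) ^ (K + 4) := by
      rw [pow_add]
      calc 16 = 1 * 16 := by norm_num
        _ ≤ _ := Nat.mul_le_mul (Nat.one_le_pow _ _ (by omega)) hz16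
    have h3 : 1 * 16 ≤ r * (2 ^ p * (p + 1) ^ w) ^ (K + 4) := Nat.mul_le_mul hr h2
    omega
  have h2 := absorb hZ hN h1 hmid (le_trans (mul_le_mul_of_nonneg_left hZ16
    (mul_nonneg (Nat.cast_nonneg e) (Real.log_natCast_nonneg N))) heN)
  refine le_trans (Real.rpow_le_rpow_of_exponent_le (by norm_num) ?_) h2
  exact div_le_div_of_nonneg_left (Nat.cast_nonneg N) (by positivity) hZ16

end Vale.Agent.P336.R2.H836
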