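import Vale.Agent.P336.R2.H836.Blocks
import Vale.Agent.P336.R2.H524.NarrowExp

/-!
# P336: narrow clauses of any structure together with functions of limited views
-/

namespace Vale.Agent.P336.R2.H836

open Finset Vale.Agent.P336.Expansion

section Weights

variable {V : Type*} [Fintype V] [DecidableEq V]

theorem sum_pow_card (q : ℝ) : ∑ A : Finset V, q ^ A.card = (1 + q) ^ Fintype.card V := by
  rw [← Finset.powerset_univ, ← Finset.card_univ, ← Finset.prod_const, Finset.prod_one_add]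
  refine Finset.sum_congr rfl fun A _ => ?_
  rw [Finset.prod_const]

theorem sum_pow_inter {q c : ℝ} (B : Finset V) :
    ∑ A : Finset V, q ^ A.card * c ^ (B ∩ A).card =
      (1 + q * c) ^ B.card * (1 + q) ^ (Fintype.card V - B.card) := by
  have h1 : ∏ v : V, (1 + q * if v ∈ B then c else 1) =
      (1 + q * c) ^ B.card * (1 + q) ^ (Fintype.card V - B.card) := by
    rw [← Finset.card_compl, ← Finset.prod_const, ← Finset.prod_const,
      ← Finset.prod_mul_prod_compl B]
    congr 1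
    · exact Finset.prod_congr rfl fun v hv => by rw [if_pos hv]
    · exact Finset.prod_congr rfl fun v hv => by rw [if_neg (Finset.mem_compl.1 hv), mul_one]
  rw [← h1, Finset.prod_one_add, Finset.powerset_univ]
  refine Finset.sum_congr rfl fun A _ => ?_
  rw [Finset.prod_mul_distrib, Finset.prod_const, Finset.prod_ite_mem, Finset.prod_const,
    Finset.inter_comm]

theorem card_small_le {y : ℝ} (hy0 : 0 < y) (hy1 : y ≤ 1) (f : ℕ) (A : Finset V) :
    ((A.powerset.filter fun F => F.card < f).card : ℝ) ≤ y⁻¹ ^ f * (1 + y) ^ A.card := by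
  have h1 : (1 + y) ^ A.card = ∑ F ∈ A.powerset, y ^ F.card := by
    rw [← Finset.prod_const, Finset.prod_one_add]
    refine Finset.sum_congr rfl fun F _ => ?_
    rw [Finset.prod_const]
  rw [h1, Finset.mul_sum, Finset.card_eq_sum_ones, Nat.cast_sum, Finset.sum_filter]
  refine Finset.sum_le_sum fun F _ => ?_
  split_ifs with hF
  · rw [Nat.cast_one, inv_pow]
    have h2 : y ^ f ≤ y ^ F.card := pow_le_pow_of_le_one hy0.le hy1 hF.le
    have h3 : (0 : ℝ) < y ^ f := by positivity
    calc (1 : ℝ) = (y ^ f)⁻¹ * y ^ f := (inv_mul_cancel₀ h3.ne').symm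
      _ ≤ (y ^ f)⁻¹ * y ^ F.card := mul_le_mul_of_nonneg_left h2 (by positivity)
  · positivity

theorem mix_subset {A B : Finset V} (h : A ⊆ B) (x z : V → Bool) :
    mix B x (mix A x z) = mix A x z := by
  funext v
  unfold mix
  by_cases hA : v ∈ A
  · rw [if_pos (h hA)]
  · by_cases hB : v ∈ B
    · rw [if_pos hB]
    · rw [if_neg hB, if_neg hA]

theorem mix_mix_subset {A B : Finset V} (h : A ⊆ B) (x y z : V → Bool) :
    mix B (mix A x y) z = mix B x z := by
  funext v
  unfold mix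
  by_cases hB : v ∈ B
  · rw [if_pos hB, if_pos hB]
  · rw [if_neg hB, if_neg hB, if_neg fun hA => hB (h hA)]

end Weights

theorem abs_E_le_E {α : Type*} [Fintype α] (f : α → ℝ) : |E f| ≤ E fun a => |f a| := by
  unfold E
  rw [abs_div, abs_of_nonneg (Nat.cast_nonneg (Fintype.card α) : (0 : ℝ) ≤ Fintype.card α)]
  exact div_le_div_of_nonneg_right (Finset.abs_sum_le_sum_abs _ _) (Nat.cast_nonneg _)

variable {p m : ℕ}

/-- The mean of the absolute values of the inner means over the subcubes. -/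
theorem E_abs_inner_le {h a : ℕ} (hp : 1 ≤ p) (hm : p * m ≤ h) (hm1 : 1 ≤ m)
    (A : Fin p → Finset (Fin m)) (B : Finset (Fin p × Fin m))
    (hA : ∀ i, a ≤ (emb i (A i) ∩ B).card)
    (H : Fin p → (Fin h → Bool) → (Fin p × Fin m → Bool) → ℝ)
    (hH1 : ∀ i s x, |H i s x| ≤ 1)
    (hH2 : ∀ i s x z, H i s (mix (emb i (A i)) x z) = H i s x) {β : ℝ} (hβ0 : 0 ≤ β)
    (hβ : p * (1 / 2 : ℝ) ^ a ≤ β ^ 2 ^ p) :
    (E fun s : Fin h → Bool => E fun x : Fin p × Fin m → Bool =>
      |E fun z => sgn2 (form s (mix B x z)) * ∏ i, H i s (mix B x z)|) ≤ β := by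
  classical
  set g : (Fin h → Bool) → (Fin p × Fin m → Bool) → ℝ := fun s x =>
    sgn2 (form s x) * ∏ i, H i s x with hg
  set M : (Fin h → Bool) → (Fin p × Fin m → Bool) → ℝ := fun s x =>
    E fun z => g s (mix B x z) with hM
  set σ : (Fin h → Bool) → (Fin p × Fin m → Bool) → ℝ := fun s x =>
    if 0 ≤ M s x then 1 else -1 with hσ
  have hσ1 : ∀ s x, |σ s x| ≤ 1 := fun s x => by
    simp only [hσ]
    split_ifs <;> simp
  have hMB : ∀ s x z, M s (mix B x z) = M s x := by
    intro s x z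
    simp only [hM]
    refine congrArg E (funext fun y => ?_)
    rw [mix_mix]
  have hMA : ∀ (D : Finset (Fin p × Fin m)), D ⊆ B → ∀ s x z, M s (mix D x z) = M s x := by
    intro D hD s x z
    simp only [hM]
    refine congrArg E (funext fun y => ?_)
    rw [mix_mix_subset hD]
  have h1 : ∀ s, (E fun x => |M s x|) = E fun x => g s x * σ s x := by
    intro s
    rw [← E_mix B fun x => g s x * σ s x]
    refine congrArg E (funext fun x => ?_)
    have e1 : (fun z => g s (mix B x z) * σ s (mix B x z)) =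
        fun z => σ s x * g s (mix B x z) := by
      funext z
      simp only [hσ]
      rw [hMB, mul_comm]
    rw [e1, E_mul_left]
    show |M s x| = σ s x * M s x
    simp only [hσ]
    split_ifs with h2
    · rw [one_mul, abs_of_nonneg h2]
    · rw [neg_one_mul, abs_of_neg (not_le.1 h2)]
  have h2 : (E fun s => E fun x => |M s x|) = E fun s => E fun x => sgn2 (form s x) *
      ∏ i : Fin p, (H i s x * if i = ⟨0, hp⟩ then σ s x else 1) := by
    refine congrArg E (funext fun s => ?_)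
    rw [h1 s]
    refine congrArg E (funext fun x => ?_)
    rw [Finset.prod_mul_distrib, Finset.prod_ite_eq' Finset.univ (⟨0, hp⟩ : Fin p)
      (fun _ => σ s x), if_pos (Finset.mem_univ _)]
    simp only [hg]
    ring
  show (E fun s => E fun x => |M s x|) ≤ β
  rw [h2]
  refine (le_abs_self _).trans ?_
  refine abs_corr_le (h := h) (a := a) hp hm hm1 (fun i => (A i).filter fun v => (i, v) ∈ B)
    ?_ _ ?_ ?_ hβ0 hβ
  · intro i
    refine (hA i).trans ?_
    rw [← card_emb i]
    refine Finset.card_le_card fun v hv => ?_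
    obtain ⟨h3, h4⟩ := Finset.mem_inter.1 hv
    obtain ⟨h5, h6⟩ := mem_emb.1 h3
    refine mem_emb.2 ⟨h5, Finset.mem_filter.2 ⟨h6, ?_⟩⟩
    have h7 : (i, v.2) = v := by rw [← h5]
    rw [h7]
    exact h4
  · intro i s x
    rw [abs_mul]
    refine mul_le_one₀ (hH1 i s x) (abs_nonneg _) ?_
    split_ifs
    · exact hσ1 s x
    · simp
  · intro i s x z
    have hsub1 : emb i ((A i).filter fun v => (i, v) ∈ B) ⊆ emb i (A i) := by
      intro v hv
      obtain ⟨h3, h4⟩ := mem_emb.1 hv
      exact mem_emb.2 ⟨h3, (Finset.mem_filter.1 h4).1⟩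
    have hsub2 : emb i ((A i).filter fun v => (i, v) ∈ B) ⊆ B := by
      intro v hv
      obtain ⟨h3, h4⟩ := mem_emb.1 hv
      have h7 : (i, v.2) = v := by rw [← h3]
      rw [← h7]
      exact (Finset.mem_filter.1 h4).2
    have e1 : H i s (mix (emb i ((A i).filter fun v => (i, v) ∈ B)) x z) = H i s x := by
      rw [← mix_subset hsub1 x z]
      exact hH2 i s x _
    have e2 : σ s (mix (emb i ((A i).filter fun v => (i, v) ∈ B)) x z) = σ s x := by
      simp only [hσ]
      rw [hMA _ hsub2]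
    rw [e1, e2]

theorem corr_narrow {h a f r a₀ : ℕ} {q y β : ℝ} (hp : 1 ≤ p) (hm : p * m ≤ h) (hm1 : 1 ≤ m)
    (hq0 : 0 < q) (hq1 : q ≤ 1) (hrq : (r : ℝ) * q ≤ 1 / 2) (hy0 : 0 < y) (hy1 : y ≤ 1)
    (A : Fin p → Finset (Fin m)) (hA : ∀ i, a₀ ≤ (A i).card)
    (H : Fin p → (Fin h → Bool) → (Fin p × Fin m → Bool) → ℝ)
    (hH1 : ∀ i s x, |H i s x| ≤ 1)
    (hH2 : ∀ i s x z, H i s (mix (emb i (A i)) x z) = H i s x)
    (I : (Fin h → Bool) → Finset ℕ) (C : (Fin h → Bool) → ℕ → Cl (Fin p × Fin m))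
    (hC : ∀ s, ∀ i ∈ I s, (C s i).S.card ≤ r) (hβ0 : 0 ≤ β)
    (hβ : p * (1 / 2 : ℝ) ^ a ≤ β ^ 2 ^ p) :
    |E fun s => E fun x => sgn2 (form s x) * ((∏ i, H i s x) * ∏ i ∈ I s, ind (C s i) x)| ≤
      2 * (p * 4 ^ (a + f) * ((1 + q / 4) / (1 + q)) ^ a₀ + (1 / 2) ^ f +
        y⁻¹ ^ f * (1 + q * y) ^ (p * m) * β) := by
  classical
  set g : (Fin h → Bool) → (Fin p × Fin m → Bool) → ℝ := fun s x =>
    sgn2 (form s x) * ∏ i, H i s x with hg
  have hcard : Fintype.card (Fin p × Fin m) = p * m := by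
    rw [Fintype.card_prod, Fintype.card_fin, Fintype.card_fin]
  have hsgn : ∀ c : ZMod 2, |sgn2 c| ≤ 1 := by
    intro c
    unfold sgn2
    split_ifs <;> simp
  have hg1 : ∀ s x, |g s x| ≤ 1 := by
    intro s x
    simp only [hg]
    rw [abs_mul, Finset.abs_prod]
    exact mul_le_one₀ (hsgn _) (Finset.prod_nonneg fun _ _ => abs_nonneg _)
      (Finset.prod_le_one (fun _ _ => abs_nonneg _) fun i _ => hH1 i s x)
  have hqq : (0 : ℝ) < 1 + q := by linarith
  -- expansion for each `s`
  have h1 : ∀ s, (1 + q) ^ (p * m) * |E fun x => g s x * ∏ i ∈ I s, ind (C s i) x| ≤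
      2 * ∑ B : Finset (Fin p × Fin m), q ^ B.card * min 1 ((1 / 2) ^ f +
        ∑ F ∈ B.powerset.filter (fun F => F.card < f),
          E fun x => |E fun z => g s (mix (B \ F) x z)|) := by
    intro s
    rw [← hcard]
    exact H524.narrow_expansion hq0 hrq (I s) (C s) (hC s) (g s) (hg1 s)
  -- the mean over `s` for each alive set
  have h2 : ∀ B : Finset (Fin p × Fin m), (E fun s => min 1 ((1 / 2) ^ f +
        ∑ F ∈ B.powerset.filter (fun F => F.card < f),
          E fun x => |E fun z => g s (mix (B \ F) x z)|)) ≤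
      (∑ i, 4 ^ (a + f) * (1 / 4 : ℝ) ^ (emb i (A i) ∩ B).card) + (1 / 2) ^ f +
        (y⁻¹ ^ f * (1 + y) ^ B.card) * β := by
    intro B
    have hnn1 : ∀ i : Fin p, (0 : ℝ) ≤ 4 ^ (a + f) * (1 / 4 : ℝ) ^ (emb i (A i) ∩ B).card :=
      fun i => by positivity
    have hnn2 : (0 : ℝ) ≤ (y⁻¹ ^ f * (1 + y) ^ B.card) * β := by
      have : (0 : ℝ) ≤ 1 + y := by linarith
      positivity
    by_cases hgood : ∀ i, a + f ≤ (emb i (A i) ∩ B).card
    · have h3 : (E fun s => min 1 ((1 / 2) ^ f +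
          ∑ F ∈ B.powerset.filter (fun F => F.card < f),
            E fun x => |E fun z => g s (mix (B \ F) x z)|)) ≤
          (1 / 2) ^ f + ∑ F ∈ B.powerset.filter (fun F => F.card < f), β := by
        refine (E_mono fun s => min_le_right _ _).trans ?_
        rw [E_add, E_const, E_sum]
        refine add_le_add_right (Finset.sum_le_sum fun F hF => ?_) _
        obtain ⟨hFB, hFf⟩ := Finset.mem_filter.1 hF
        refine E_abs_inner_le hp hm hm1 A (B \ F) (fun i => ?_) H hH1 hH2 hβ0 hβ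
        have h4 : (emb i (A i) ∩ B).card ≤ (emb i (A i) ∩ (B \ F)).card + F.card := by
          refine (Finset.card_le_card (t := (emb i (A i) ∩ (B \ F)) ∪ F) fun v hv => ?_).trans
            (Finset.card_union_le _ _)
          obtain ⟨h5, h6⟩ := Finset.mem_inter.1 hv
          by_cases hvF : v ∈ F
          · exact Finset.mem_union_right _ hvF
          · exact Finset.mem_union_left _ (Finset.mem_inter.2 ⟨h5, Finset.mem_sdiff.2 ⟨h6, hvF⟩⟩)
        have h5 := hgood i
        omega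
      refine h3.trans ?_
      rw [Finset.sum_const, nsmul_eq_mul]
      have h6 := mul_le_mul_of_nonneg_right (card_small_le hy0 hy1 f B) hβ0
      have h7 : (0 : ℝ) ≤ ∑ i, 4 ^ (a + f) * (1 / 4 : ℝ) ^ (emb i (A i) ∩ B).card :=
        Finset.sum_nonneg fun i _ => hnn1 i
      linarith
    · push Not at hgood
      obtain ⟨i, hi⟩ := hgood
      have h3 : (E fun s : Fin h → Bool => min 1 ((1 / 2) ^ f +
          ∑ F ∈ B.powerset.filter (fun F => F.card < f),
            E fun x => |E fun z => g s (mix (B \ F) x z)|)) ≤ 1 := by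
        refine (E_mono fun s => min_le_left _ _).trans (le_of_eq ?_)
        exact E_const 1
      have h4 : (1 : ℝ) ≤ 4 ^ (a + f) * (1 / 4 : ℝ) ^ (emb i (A i) ∩ B).card := by
        obtain ⟨d, hd⟩ := Nat.exists_eq_add_of_lt hi
        rw [hd, show (emb i (A i) ∩ B).card + d + 1 = (emb i (A i) ∩ B).card + (d + 1) by ring,
          pow_add, mul_right_comm, ← mul_pow]
        norm_num
        exact one_le_pow₀ (by norm_num)
      have h5 := Finset.single_le_sum (fun i _ => hnn1 i) (Finset.mem_univ i)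
      have h6 : (0 : ℝ) ≤ (1 / 2) ^ f := by positivity
      linarith
  have h3 : (1 + q) ^ (p * m) *
      |E fun s => E fun x => sgn2 (form s x) * ((∏ i, H i s x) * ∏ i ∈ I s, ind (C s i) x)| ≤
      2 * ∑ B : Finset (Fin p × Fin m), q ^ B.card *
        ((∑ i, 4 ^ (a + f) * (1 / 4 : ℝ) ^ (emb i (A i) ∩ B).card) + (1 / 2) ^ f +
        (y⁻¹ ^ f * (1 + y) ^ B.card) * β) := by
    have e1 : (fun s => E fun x => sgn2 (form s x) * ((∏ i, H i s x) *
        ∏ i ∈ I s, ind (C s i) x)) = fun s => E fun x => g s x * ∏ i ∈ I s, ind (C s i) x := by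
      funext s
      refine congrArg E (funext fun x => ?_)
      simp only [hg]
      ring
    rw [e1]
    refine (mul_le_mul_of_nonneg_left (abs_E_le_E _) (by positivity)).trans ?_
    rw [← E_mul_left]
    refine (E_mono h1).trans ?_
    rw [E_mul_left, E_sum]
    refine mul_le_mul_of_nonneg_left (Finset.sum_le_sum fun B _ => ?_) (by norm_num)
    rw [E_mul_left]
    exact mul_le_mul_of_nonneg_left (h2 B) (by positivity)
  -- the sum over the alive sets
  have h4 : ∑ B : Finset (Fin p × Fin m), q ^ B.card *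
        ((∑ i, 4 ^ (a + f) * (1 / 4 : ℝ) ^ (emb i (A i) ∩ B).card) + (1 / 2) ^ f +
        (y⁻¹ ^ f * (1 + y) ^ B.card) * β) ≤
      (1 + q) ^ (p * m) * (p * 4 ^ (a + f) * ((1 + q / 4) / (1 + q)) ^ a₀ + (1 / 2) ^ f +
        y⁻¹ ^ f * (1 + q * y) ^ (p * m) * β) := by
    have e1 : ∑ B : Finset (Fin p × Fin m), q ^ B.card *
        ((∑ i, 4 ^ (a + f) * (1 / 4 : ℝ) ^ (emb i (A i) ∩ B).card) + (1 / 2) ^ f +
        (y⁻¹ ^ f * (1 + y) ^ B.card) * β) =
        (∑ i, 4 ^ (a + f) * ∑ B : Finset (Fin p × Fin m), q ^ B.card *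
          (1 / 4 : ℝ) ^ (emb i (A i) ∩ B).card) +
        (∑ B : Finset (Fin p × Fin m), q ^ B.card) * (1 / 2) ^ f +
        (∑ B : Finset (Fin p × Fin m), (q * (1 + y)) ^ B.card) * (y⁻¹ ^ f * β) := by
      have e2 : ∑ i, 4 ^ (a + f) * ∑ B : Finset (Fin p × Fin m), q ^ B.card *
          (1 / 4 : ℝ) ^ (emb i (A i) ∩ B).card = ∑ B : Finset (Fin p × Fin m), q ^ B.card *
          ∑ i, 4 ^ (a + f) * (1 / 4 : ℝ) ^ (emb i (A i) ∩ B).card := by
        simp only [Finset.mul_sum]
        rw [Finset.sum_comm]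
        refine Finset.sum_congr rfl fun B _ => Finset.sum_congr rfl fun i _ => ?_
        ring
      rw [e2, Finset.sum_mul, Finset.sum_mul, ← Finset.sum_add_distrib, ← Finset.sum_add_distrib]
      refine Finset.sum_congr rfl fun B _ => ?_
      rw [mul_pow]
      ring
    rw [e1, sum_pow_card, sum_pow_card, hcard]
    have e3 : ∀ i : Fin p, ∑ B : Finset (Fin p × Fin m), q ^ B.card *
        (1 / 4 : ℝ) ^ (emb i (A i) ∩ B).card ≤
        (1 + q) ^ (p * m) * ((1 + q / 4) / (1 + q)) ^ a₀ := by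
      intro i
      rw [sum_pow_inter, hcard, card_emb]
      have h5 : (A i).card ≤ p * m := by
        rw [← card_emb i, ← hcard]
        exact Finset.card_le_univ _
      have h6 : (1 + q) ^ (p * m) = (1 + q) ^ (A i).card * (1 + q) ^ (p * m - (A i).card) := by
        rw [← pow_add, Nat.add_sub_cancel' h5]
      have h7 : (1 + q * (1 / 4)) ^ (A i).card =
          (1 + q) ^ (A i).card * ((1 + q / 4) / (1 + q)) ^ (A i).card := by
        rw [← mul_pow]
        congr 1
        field_simp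
      have h8 : ((1 + q / 4) / (1 + q)) ^ (A i).card ≤ ((1 + q / 4) / (1 + q)) ^ a₀ := by
        refine pow_le_pow_of_le_one (by positivity) ?_ (hA i)
        rw [div_le_one hqq]
        linarith
      rw [h7, h6]
      have h9 : (0 : ℝ) ≤ (1 + q) ^ (A i).card * (1 + q) ^ (p * m - (A i).card) := by positivity
      nlinarith [mul_le_mul_of_nonneg_left h8 h9]
    have e4 : (1 + q * (1 + y)) ^ (p * m) ≤ (1 + q) ^ (p * m) * (1 + q * y) ^ (p * m) := by
      rw [← mul_pow]
      refine pow_le_pow_left₀ (by positivity) ?_ _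
      nlinarith [mul_pos (mul_pos hq0 hq0) hy0]
    have e5 : ∑ i : Fin p, 4 ^ (a + f) * ∑ B : Finset (Fin p × Fin m), q ^ B.card *
        (1 / 4 : ℝ) ^ (emb i (A i) ∩ B).card ≤
        (1 + q) ^ (p * m) * (p * 4 ^ (a + f) * ((1 + q / 4) / (1 + q)) ^ a₀) := by
      refine (Finset.sum_le_sum fun i _ => mul_le_mul_of_nonneg_left (e3 i)
        (by positivity : (0 : ℝ) ≤ 4 ^ (a + f))).trans (le_of_eq ?_)
      rw [Finset.sum_const, Finset.card_univ, Fintype.card_fin, nsmul_eq_mul]
      ring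
    have e6 : (1 + q * (1 + y)) ^ (p * m) * (y⁻¹ ^ f * β) ≤
        (1 + q) ^ (p * m) * (y⁻¹ ^ f * (1 + q * y) ^ (p * m) * β) := by
      refine (mul_le_mul_of_nonneg_right e4 (by positivity)).trans (le_of_eq ?_)
      ring
    linarith
  have h5 : (0 : ℝ) < (1 + q) ^ (p * m) := by positivity
  rw [← mul_le_mul_iff_right₀ h5]
  refine h3.trans ?_
  refine (mul_le_mul_of_nonneg_left h4 (by norm_num)).trans (le_of_eq ?_)
  ring

end Vale.Agent.P336.R2.H836
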