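import Vale.Agent.P336.R2.H836.Assembly
import Vale.Agent.P336.R2.H836.Narrow
import Vale.Agent.P336.R2.H524.Lang2

/-!
# P336: the words of the second language
-/

namespace Vale.Agent.P336.R2.H836

open Finset

section

variable {N p m : ℕ}

theorem wordOf2_header {u : Fin N → Bool} {s : Fin (N / 4) → Bool} {x : Fin p × Fin m → Bool}
    {t : Fin N} (ht : (t : ℕ) < Nat.size N) :
    wordOf2 N p m u s x t = decide ((t : ℕ) < p) := by
  unfold wordOf2
  rw [if_pos ht]

theorem wordOf2_s (hsz : Nat.size N ≤ N / 4) (u : Fin N → Bool) (s : Fin (N / 4) → Bool)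
    (x : Fin p × Fin m → Bool) (d : Fin (N / 4)) (h : N / 4 + (d : ℕ) < N) :
    wordOf2 N p m u s x ⟨N / 4 + d, h⟩ = s d := by
  have hd := d.isLt
  unfold wordOf2
  simp only
  rw [if_neg (by omega), dif_pos (by omega)]
  congr 1
  exact Fin.ext (by simp)

theorem wordOf2_x (hsz : Nat.size N ≤ N / 4) (hpm : p * m ≤ N / 4) (u : Fin N → Bool)
    (s : Fin (N / 4) → Bool) (x : Fin p × Fin m → Bool) (v : Fin p × Fin m) :
    wordOf2 N p m u s x (pos hpm v) = x v := by
  obtain ⟨i, j⟩ := v
  have hi := i.isLt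
  have hj := j.isLt
  have hm : 0 < m := by omega
  have e0 : 2 * (N / 4) + (i : ℕ) * m + (j : ℕ) - 2 * (N / 4) = m * i + j := by
    rw [mul_comm m]
    omega
  have e1 : (2 * (N / 4) + (i : ℕ) * m + (j : ℕ) - 2 * (N / 4)) / m = i := by
    rw [e0, Nat.mul_add_div hm, Nat.div_eq_of_lt hj, add_zero]
  have e2 : (2 * (N / 4) + (i : ℕ) * m + (j : ℕ) - 2 * (N / 4)) % m = j := by
    rw [e0, Nat.mul_add_mod, Nat.mod_eq_of_lt hj]
  unfold wordOf2 pos
  simp only
  rw [if_neg (by omega), dif_neg (by omega), dif_pos ⟨by omega, by rw [e1]; exact hi, hm⟩]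
  congr 1
  exact Prod.ext (Fin.ext e1) (Fin.ext e2)

theorem size_le_self (N : ℕ) : Nat.size N ≤ N := by
  rw [Nat.size_le]
  exact Nat.lt_two_pow_self

theorem count_wordOf2 (hp : p ≤ Nat.size N) (u : Fin N → Bool) (s : Fin (N / 4) → Bool)
    (x : Fin p × Fin m → Bool) :
    ((List.ofFn (wordOf2 N p m u s x)).take (Nat.size N)).count true = p := by
  have h0 := size_le_self N
  have h1 : (List.ofFn (wordOf2 N p m u s x)).take (Nat.size N) =
      List.replicate p true ++ List.replicate (Nat.size N - p) false := by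
    refine List.ext_getElem ?_ fun n h1 h2 => ?_
    · simp only [List.length_take, List.length_ofFn, List.length_append, List.length_replicate]
      omega
    · rw [List.length_take, List.length_ofFn] at h1
      rw [List.getElem_take, List.getElem_ofFn, List.getElem_append]
      rw [wordOf2_header (show ((⟨n, _⟩ : Fin N) : ℕ) < Nat.size N by simp only; omega)]
      simp only [List.length_replicate, List.getElem_replicate]
      split_ifs with h3
      · exact decide_eq_true h3
      · exact decide_eq_false h3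
  rw [h1, List.count_append, List.count_replicate, List.count_replicate]
  simp

theorem mem_lang2_wordOf2 (hm : m = N / 4 / p) (hpm : p * m ≤ N / 4) (hp : p ≤ Nat.size N)
    (hsz : Nat.size N ≤ N / 4) (u : Fin N → Bool) (s : Fin (N / 4) → Bool)
    (x : Fin p × Fin m → Bool) :
    List.ofFn (wordOf2 N p m u s x) ∈ lang2 ↔ form s x = 1 := by
  have h1 : ∀ d : Fin (N / 4), N / 4 + (d : ℕ) < N := by
    intro d
    have := d.isLt
    omega
  have h2 := H524.value2_eq hm (wordOf2 N p m u s x) (count_wordOf2 hp u s x) h1 (pos_lt hpm)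
  have h3 : (fun d : Fin (N / 4) => wordOf2 N p m u s x ⟨N / 4 + d, h1 d⟩) = s :=
    funext fun d => wordOf2_s hsz u s x d (h1 d)
  have h4 : (fun v : Fin p × Fin m => wordOf2 N p m u s x
      ⟨2 * (N / 4) + v.1 * m + v.2, pos_lt hpm v⟩) = x :=
    funext fun v => wordOf2_x hsz hpm u s x v
  rw [h3, h4] at h2
  rw [← h2]
  show value2 _ % 2 = 1 ↔ _
  constructor
  · intro h
    rw [← Nat.mod_add_div (value2 (List.ofFn (wordOf2 N p m u s x))) 2, h]
    push_cast
    rw [show (2 : ZMod 2) = 0 from rfl, zero_mul, add_zero]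
  · intro h
    have h5 : ((value2 (List.ofFn (wordOf2 N p m u s x)) : ℕ) : ZMod 2) = ((1 : ℕ) : ZMod 2) := by
      rw [h, Nat.cast_one]
    exact (ZMod.natCast_eq_natCast_iff' _ _ 2).1 h5

/-- Only the positions of the variables depend on `x`. -/
theorem wordOf2_congr (hsz : Nat.size N ≤ N / 4) (hpm : p * m ≤ N / 4) (u : Fin N → Bool)
    (s : Fin (N / 4) → Bool) (x z : Fin p × Fin m → Bool) (t : Fin N)
    (h : ∀ v, t = pos hpm v → x v = z v) : wordOf2 N p m u s x t = wordOf2 N p m u s z t := by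
  by_cases ht : ∃ v, t = pos hpm v
  · obtain ⟨v, rfl⟩ := ht
    rw [wordOf2_x hsz, wordOf2_x hsz]
    exact h v rfl
  · unfold wordOf2
    split_ifs with h1 h2 h3
    · rfl
    · rfl
    · exfalso
      refine ht ⟨(⟨((t : ℕ) - 2 * (N / 4)) / m, h3.2.1⟩,
        ⟨((t : ℕ) - 2 * (N / 4)) % m, Nat.mod_lt _ h3.2.2⟩), Fin.ext ?_⟩
      show (t : ℕ) = 2 * (N / 4) + ((t : ℕ) - 2 * (N / 4)) / m * m + ((t : ℕ) - 2 * (N / 4)) % m
      have h4 := Nat.div_add_mod ((t : ℕ) - 2 * (N / 4)) m
      rw [mul_comm] at h4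
      omega
    · rfl

theorem wordOf2_mix (hsz : Nat.size N ≤ N / 4) (hpm : p * m ≤ N / 4) (u : Fin N → Bool)
    (s : Fin (N / 4) → Bool) (x z : Fin p × Fin m → Bool) (A : Finset (Fin p × Fin m))
    (t : Fin N) (ht : ∀ v ∈ A, t ≠ pos hpm v) :
    wordOf2 N p m u s (mix A x z) t = wordOf2 N p m u s x t := by
  refine wordOf2_congr hsz hpm u s _ _ t fun v hv => ?_
  unfold mix
  rw [if_neg fun hvA => ht v hvA hv]

end

open Classical in
/-- **The discriminator lemma with errors.**  `W` contains the inputs on which the gates accept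
although the form is not `b`. -/
theorem gates_bound2 {p m h : ℕ} {γ υ : Type*} [Fintype γ] [Fintype υ] [Nonempty υ]
    (G : γ → υ → (Fin h → Bool) → (Fin p × Fin m → Bool) → Prop)
    (W : υ → (Fin h → Bool) → (Fin p × Fin m → Bool) → Prop)
    (b : ZMod 2) (hf1 : ∀ u s x, form s x = b → ∃ g, G g u s x)
    (hf2 : ∀ u s x, (∃ g, G g u s x) → form s x = b ∨ W u s x) {β δ : ℝ}
    (h1 : ∀ g u, |E fun s => E fun x => sgn2 (form s x) * if G g u s x then (1 : ℝ) else 0| ≤ β)
    (h2 : |E fun s : Fin h → Bool => E fun x : Fin p × Fin m → Bool => sgn2 (form s x)| ≤ β)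
    (h3 : (E fun u => E fun s => E fun x => if W u s x then (1 : ℝ) else 0) ≤ δ) :
    (1 : ℝ) ≤ (2 * Fintype.card γ + 1) * β + 2 * Fintype.card γ * δ := by
  have hb1 : |sgn2 b| = 1 := by
    unfold sgn2
    split_ifs <;> simp
  -- pointwise
  have h4 : ∀ (u : υ) (s : Fin h → Bool) (x : Fin p × Fin m → Bool),
      1 + sgn2 b * sgn2 (form s x) ≤
        2 * (sgn2 b * ∑ g, (sgn2 (form s x) * if G g u s x then (1 : ℝ) else 0)) +
          2 * Fintype.card γ * (if W u s x then (1 : ℝ) else 0) := by
    intro u s x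
    have hsum : sgn2 b * ∑ g, (sgn2 (form s x) * if G g u s x then (1 : ℝ) else 0) =
        (sgn2 b * sgn2 (form s x)) * ∑ g, if G g u s x then (1 : ℝ) else 0 := by
      rw [Finset.mul_sum, Finset.mul_sum]
      exact Finset.sum_congr rfl fun g _ => by ring
    have h5 : (0 : ℝ) ≤ ∑ g, if G g u s x then (1 : ℝ) else 0 :=
      Finset.sum_nonneg fun g _ => by split_ifs <;> norm_num
    have h6 : (0 : ℝ) ≤ 2 * Fintype.card γ * (if W u s x then (1 : ℝ) else 0) := by
      split_ifs <;> positivity
    rw [hsum]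
    by_cases h4 : form s x = b
    · obtain ⟨g, hg⟩ := hf1 u s x h4
      have h7 : (1 : ℝ) ≤ ∑ g, if G g u s x then (1 : ℝ) else 0 := by
        refine le_trans (by rw [if_pos hg]) (Finset.single_le_sum
          (f := fun g => if G g u s x then (1 : ℝ) else 0) (fun g _ => ?_) (Finset.mem_univ g))
        split_ifs <;> norm_num
      have h8 : sgn2 b * sgn2 (form s x) = 1 := by
        rw [h4]
        unfold sgn2
        split_ifs <;> norm_num
      rw [h8]
      linarith
    · have h8 : sgn2 b * sgn2 (form s x) = -1 := by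
        revert h4
        rcases zmod2_cases (form s x) with h7 | h7 <;> rcases zmod2_cases b with h8 | h8 <;>
          rw [h7, h8] <;> simp [sgn2]
      rw [h8]
      by_cases hW : W u s x
      · have h9 : (∑ g, if G g u s x then (1 : ℝ) else 0) ≤ Fintype.card γ := by
          refine (Finset.sum_le_sum (g := fun _ => (1 : ℝ)) fun g _ => ?_).trans (le_of_eq ?_)
          · split_ifs <;> norm_num
          · rw [Finset.sum_const, Finset.card_univ, nsmul_eq_mul, mul_one]
        rw [if_pos hW]
        linarith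
      · have h9 : (∑ g, if G g u s x then (1 : ℝ) else 0) = 0 := by
          refine Finset.sum_eq_zero fun g _ => if_neg fun hg => ?_
          rcases hf2 u s x ⟨g, hg⟩ with h | h
          · exact h4 h
          · exact hW h
        rw [h9, if_neg hW]
        simp
  have h5 := E_mono fun u : υ => E_mono fun s : Fin h → Bool => E_mono (h4 u s)
  simp only [E_add, E_const, E_mul_left, E_sum] at h5
  have h6 : sgn2 b * ∑ g, (E fun u : υ => E fun s => E fun x =>
      sgn2 (form s x) * if G g u s x then (1 : ℝ) else 0) ≤ Fintype.card γ * β := by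
    refine (le_abs_self _).trans ?_
    rw [abs_mul, hb1, one_mul]
    refine (Finset.abs_sum_le_sum_abs _ _).trans ?_
    refine (Finset.sum_le_sum (g := fun _ => β) fun g _ => ?_).trans (le_of_eq ?_)
    · refine (abs_E_le_E _).trans ((E_mono fun u => h1 g u).trans (le_of_eq ?_))
      exact E_const β
    · rw [Finset.sum_const, Finset.card_univ, nsmul_eq_mul]
  have h7 : -β ≤ sgn2 b * (E fun s : Fin h → Bool => E fun x : Fin p × Fin m → Bool =>
      sgn2 (form s x)) := by
    refine (neg_le_neg ?_).trans (neg_abs_le _)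
    rw [abs_mul, hb1, one_mul]
    exact h2
  have h8 : 2 * (Fintype.card γ : ℝ) * (E fun u => E fun s => E fun x =>
      if W u s x then (1 : ℝ) else 0) ≤ 2 * Fintype.card γ * δ :=
    mul_le_mul_of_nonneg_left h3 (by positivity)
  linarith

end Vale.Agent.P336.R2.H836
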