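import Vale.Agent.P336.R2.H836.Critical
import Vale.Agent.P336.R2.H746.WSpec

/-!
# P336: circuits whose bottom gates of critical width form cylinder intersections
-/

namespace Vale.Agent.P336

/-- The bottom gates of critical width of the middle gate `j` form a cylinder intersection of `p`
parties: there are `p` pairwise disjoint sets of at least `S` variables such that every bottom
gate which `j` reads, with at most `e` exceptions, reads at most `r` variables, or at least
`n / r` variables, or no variable of one of the sets. -/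
def Circuit.CriticalCylinder {n : ℕ} (C : Circuit n) (e r p S : ℕ) (j : Fin C.middle) : Prop :=
  ∃ (X : Finset (Fin C.bottom)) (A : Fin p → Finset (Fin n)), X.card ≤ e ∧
    (∀ i, S ≤ (A i).card) ∧ (∀ i i', i ≠ i' → Disjoint (A i) (A i')) ∧
    ∀ b ∈ C.conj j, b ∈ X ∨ (C.vars b).encard ≤ r ∨ (n : ℕ∞) ≤ r * (C.vars b).encard ∨
      ∃ i, ∀ v ∈ A i, v ∉ C.vars b

end Vale.Agent.P336

namespace Vale.Agent.P336.R2.H836

open Vale.Agent.P336

/-- The class after the wide gates have been dropped and the exceptional gates replaced. -/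
def NarrowCylinder {n : ℕ} (C : Circuit n) (r p S : ℕ) (j : Fin C.middle) : Prop :=
  ∃ A : Fin p → Finset (Fin n), (∀ i, S ≤ (A i).card) ∧
    (∀ i i', i ≠ i' → Disjoint (A i) (A i')) ∧
    ∀ b ∈ C.conj j, (C.vars b).encard ≤ r ∨ ∃ i, ∀ v ∈ A i, v ∉ C.vars b

theorem reduce_cylinder {N e r p S : ℕ} (hr : 1 ≤ r) (C : Circuit N)
    (hC : ∀ j ∈ C.top, C.CriticalCylinder e r p S j) :
    ∃ C' : Circuit N, (∀ x, C'.Accepts x ↔ (dropWide C r).Accepts x) ∧
      C'.middle ≤ C.middle * (2 * N + 2) ^ e ∧ ∀ j ∈ C'.top, NarrowCylinder C' r p S j := by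
  classical
  have hX : ∀ j : Fin (dropWide C r).middle, ∃ X : Finset (Fin (dropWide C r).bottom),
      X.card ≤ e ∧ (j ∈ (dropWide C r).top → ∃ A : Fin p → Finset (Fin N),
        (∀ i, S ≤ (A i).card) ∧ (∀ i i', i ≠ i' → Disjoint (A i) (A i')) ∧
        ∀ b ∈ (dropWide C r).conj j, b ∈ X ∨ ((dropWide C r).vars b).encard ≤ r ∨
          ∃ i, ∀ v ∈ A i, v ∉ (dropWide C r).vars b) := by
    intro j
    by_cases hj : j ∈ (dropWide C r).top
    · obtain ⟨X, A, hXe, h1, h2, h3⟩ := hC j hj
      refine ⟨X, hXe, fun _ => ⟨A, h1, h2, fun b hb => ?_⟩⟩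
      rcases h3 b hb.1 with h | h | h | h
      · exact Or.inl h
      · exact Or.inr (Or.inl h)
      · exact absurd h hb.2
      · exact Or.inr (Or.inr h)
    · exact ⟨∅, by simp, fun h => absurd h hj⟩
  choose X hXe hXA using hX
  obtain ⟨C', hacc, hmid, hcon⟩ := exists_reduced (dropWide C r) X hXe
  refine ⟨C', hacc, hmid, fun j' hj' => ?_⟩
  obtain ⟨j, hj, hb⟩ := hcon j' hj'
  obtain ⟨A, h1, h2, h3⟩ := hXA j hj
  refine ⟨A, h1, h2, fun b' hb' => ?_⟩
  rcases hb b' hb' with h | ⟨b, hbj, hbX, hv⟩
  · refine Or.inl (h.trans ?_)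
    exact_mod_cast hr
  · rw [hv]
    rcases h3 b hbj with h | h
    · exact absurd h hbX
    · exact h

open Classical in
/-- The gates of a circuit below the top gate as arbitrary functions. -/
noncomputable def toAny {n : ℕ} (C : Circuit n) : AnyCircuit n where
  middle := Fintype.card {j : Fin C.middle // j ∈ C.top}
  fanIn := fun _ => C.bottom
  fn := fun j b x => decide (b ∈ C.conj ((Fintype.equivFin {j : Fin C.middle // j ∈ C.top}).symm j) →
    ∃ l ∈ C.lits b, l.eval x = true)
  reads := fun j b => if b ∈ C.conj ((Fintype.equivFin {j : Fin C.middle // j ∈ C.top}).symm j)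
    then Finset.univ.filter fun v => v ∈ C.vars b else ∅
  congr := by
    intro j b x y h
    rw [decide_eq_decide]
    refine forall_congr' fun hb => ?_
    rw [if_pos hb] at h
    refine exists_congr fun l => and_congr_right fun hl => ?_
    rw [l.eval_congr fun v hv => h v (Finset.mem_filter.2 ⟨Finset.mem_univ _, l, hl, hv⟩)]

theorem toAny_accepts {n : ℕ} (C : Circuit n) (x : Fin n → Bool) :
    (toAny C).Accepts x ↔ C.Accepts x := by
  classical
  constructor
  · rintro ⟨j, h⟩
    refine ⟨_, ((Fintype.equivFin {j : Fin C.middle // j ∈ C.top}).symm j).2, fun b hb => ?_⟩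
    exact of_decide_eq_true (h b) hb
  · rintro ⟨j, hj, h⟩
    refine ⟨Fintype.equivFin {j : Fin C.middle // j ∈ C.top} ⟨j, hj⟩, fun b => ?_⟩
    refine decide_eq_true fun hb => h b ?_
    rwa [Equiv.symm_apply_apply] at hb

theorem toAny_middle {n : ℕ} (C : Circuit n) : (toAny C).middle ≤ C.middle := by
  classical
  unfold toAny
  refine le_trans (Fintype.card_le_of_injective (fun j : {j : Fin C.middle // j ∈ C.top} => j.1)
    Subtype.val_injective) (le_of_eq (Fintype.card_fin _))

/-- The class for arbitrary functions. -/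
theorem toAny_cylinder {n r p S : ℕ} (C : Circuit n)
    (hC : ∀ j ∈ C.top, NarrowCylinder C r p S j) (j : Fin (toAny C).middle) :
    ∃ A : Fin p → Finset (Fin n), (∀ i, S ≤ (A i).card) ∧
      (∀ i i', i ≠ i' → Disjoint (A i) (A i')) ∧
      ∀ b, ((toAny C).reads j b).card ≤ r ∨ ∃ i, Disjoint (A i) ((toAny C).reads j b) := by
  classical
  have hj := ((Fintype.equivFin {j : Fin C.middle // j ∈ C.top}).symm j).2
  obtain ⟨A, h1, h2, h3⟩ := hC _ hj
  refine ⟨A, h1, h2, fun b => ?_⟩
  by_cases hb : b ∈ C.conj ((Fintype.equivFin {j : Fin C.middle // j ∈ C.top}).symm j)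
  · have hr : (toAny C).reads j b = Finset.univ.filter fun v => v ∈ C.vars b := if_pos hb
    rw [hr]
    rcases h3 b hb with h | ⟨i, h⟩
    · left
      have h4 : ((Finset.univ.filter fun v => v ∈ C.vars b : Finset (Fin n)) : Set (Fin n)) =
          C.vars b := by
        ext v
        simp
      rw [← h4, Set.encard_coe_eq_coe_finsetCard] at h
      exact_mod_cast h
    · right
      refine ⟨i, Finset.disjoint_left.2 fun v hv hv' => h v hv (Finset.mem_filter.1 hv').2⟩
  · left
    have hr : (toAny C).reads j b = ∅ := if_neg hb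
    rw [hr, Finset.card_empty]
    exact Nat.zero_le _

end Vale.Agent.P336.R2.H836
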