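import Vale.Agent.P336.R2.H836.CritCyl
import Vale.Agent.P336.R2.H746.WMain
import Vale.Agent.P336.R2.H81.CylProb

/-!
# P336: the lower bound for circuits whose bottom gates of critical width form cylinder
intersections
-/

namespace Vale.Agent.P336.R2.H836

open Finset Vale.Agent.P336 Vale.Agent.P336.Cyl
open scoped BigOperators

/-- The arithmetic of the wide gates: `K ≥ 1`. -/
theorem arith_wide {N p S r t K q : ℕ} (hK : 1 ≤ K) (hN : 1 ≤ N) (hp : 2 ≤ p) (ht : 1 ≤ t)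
    (hr : 1 ≤ r) (hKt : K * r * p ^ 2 * 2 ^ p * N * t ≤ S ^ 2) (hpS : p * S ≤ N)
    (h16 : 16 * r ^ 2 ≤ N) (hq : q * q ≤ N) : 4 * t + 3 + 2 * q ≤ ⌈(N : ℝ) / r⌉₊ := by
  -- `64 r t ≤ N`
  have h1 : 64 * (r * t) ≤ N := by
    have h2 : (p * S) ^ 2 ≤ N ^ 2 := Nat.pow_le_pow_left hpS 2
    have h3 : p ^ 2 * (K * r * p ^ 2 * 2 ^ p * N * t) ≤ N ^ 2 := by
      calc p ^ 2 * (K * r * p ^ 2 * 2 ^ p * N * t) ≤ p ^ 2 * S ^ 2 := Nat.mul_le_mul_left _ hKt
        _ = (p * S) ^ 2 := by ring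
        _ ≤ N ^ 2 := h2
    have h4 : 4 ≤ p ^ 2 := by nlinarith
    have h5 : 4 ≤ 2 ^ p := by
      calc 4 = 2 ^ 2 := by norm_num
        _ ≤ 2 ^ p := Nat.pow_le_pow_right (by norm_num) hp
    have h6 : 64 * (r * t) * N ≤ N * N := by
      calc 64 * (r * t) * N = 4 * (1 * r * 4 * 4 * N * t) := by ring
        _ ≤ p ^ 2 * (K * r * p ^ 2 * 2 ^ p * N * t) := by gcongr
        _ ≤ N ^ 2 := h3
        _ = N * N := by ring
    exact Nat.le_of_mul_le_mul_right h6 hN
  -- `4 q r ≤ N`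
  have h2 : 4 * (q * r) ≤ N := by
    have h3 : (4 * (q * r)) ^ 2 ≤ N ^ 2 := by
      calc (4 * (q * r)) ^ 2 = (q * q) * (16 * r ^ 2) := by ring
        _ ≤ N * N := Nat.mul_le_mul hq h16
        _ = N ^ 2 := by ring
    exact (Nat.pow_le_pow_iff_left (by norm_num)).1 h3
  have h3 : (4 * t + 3 + 2 * q) * r ≤ N := by
    have h4 : (4 * t + 3) * r ≤ 7 * (r * t) := by nlinarith
    have h5 : (4 * t + 3 + 2 * q) * r = (4 * t + 3) * r + 2 * (q * r) := by ring
    omega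
  have h4 : ((4 * t + 3 + 2 * q : ℕ) : ℝ) ≤ (N : ℝ) / r := by
    rw [le_div_iff₀ (by exact_mod_cast hr)]
    exact_mod_cast h3
  exact_mod_cast h4.trans (Nat.le_ceil _)

theorem pow_exc_le {N e t : ℕ} (hN : 1 ≤ N) (he : e * Nat.size N ≤ t) : (2 * N + 2) ^ e ≤ 2 ^ (2 * t) := by
  have h1 : N < 2 ^ Nat.size N := Nat.lt_size_self N
  have h2 : 2 * N + 2 ≤ 2 ^ (2 * Nat.size N) := by
    have h3 : 1 ≤ Nat.size N := Nat.size_pos.2 hN
    calc 2 * N + 2 ≤ 2 ^ (Nat.size N + 1) := by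
          rw [pow_succ]
          omega
      _ ≤ 2 ^ (2 * Nat.size N) := Nat.pow_le_pow_right (by norm_num) (by omega)
  calc (2 * N + 2) ^ e ≤ (2 ^ (2 * Nat.size N)) ^ e := Nat.pow_le_pow_left h2 e
    _ = 2 ^ (2 * (e * Nat.size N)) := by rw [← pow_mul]; congr 1; ring
    _ ≤ 2 ^ (2 * t) := Nat.pow_le_pow_right (by norm_num) (by omega)

/-- **Circuits whose bottom gates of critical width form cylinder intersections.** -/
theorem critical_cylinder_main : ∃ K : ℕ, ∀ N p S r e t : ℕ, 1 ≤ N → 2 ≤ p → 1 ≤ r → 1 ≤ t →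
    e * Nat.size N ≤ t → 16 * r ^ 2 ≤ N → K * r * p ^ 2 * 2 ^ p * N * t ≤ S ^ 2 → p * S ≤ N →
    ∀ C : Circuit N, (∀ j ∈ C.top, C.CriticalCylinder e r p S j) →
    ((∀ x, C.Accepts x ↔ slice Cyl.lang N x = true) ∨
      (∀ x, C.Accepts x ↔ slice Cyl.lang N x = false)) →
    2 ^ t ≤ max C.middle (C.wideCount r) := by
  classical
  obtain ⟨K, hK⟩ := wmain
  refine ⟨3 * K + 1, fun N p S r e t hN hp hr ht he h16 hKt hpS C hC hf => ?_⟩
  have hKt' : K * r * p ^ 2 * 2 ^ p * N * (3 * t) ≤ S ^ 2 := by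
    refine le_trans ?_ hKt
    calc K * r * p ^ 2 * 2 ^ p * N * (3 * t) = 3 * K * (r * p ^ 2 * 2 ^ p * N * t) := by ring
      _ ≤ (3 * K + 1) * (r * p ^ 2 * 2 ^ p * N * t) := Nat.mul_le_mul_right _ (by omega)
      _ = (3 * K + 1) * r * p ^ 2 * 2 ^ p * N * t := by ring
  obtain ⟨ρ, rr, hrr, hrr0, hrrN, hslice, hmain⟩ :=
    hK N p S r (3 * t) hN hp hr (by omega) hKt' hpS
  have har := arith_wide (K := 3 * K + 1) (by omega) hN hp ht hr hKt hpS h16 (root_mul_le N)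
  obtain ⟨C', hacc, hmid, hnar⟩ := reduce_cylinder hr C hC
  by_contra hcon
  push Not at hcon
  have hM : C.middle < 2 ^ t := lt_of_le_of_lt (le_max_left _ _) hcon
  have hB : C.wideCount r < 2 ^ t := lt_of_le_of_lt (le_max_right _ _) hcon
  have hM' : C'.middle < 2 ^ (3 * t) := by
    refine lt_of_le_of_lt (hmid.trans (Nat.mul_le_mul_left _ (pow_exc_le hN he))) ?_
    calc C.middle * 2 ^ (2 * t) < 2 ^ t * 2 ^ (2 * t) :=
          Nat.mul_lt_mul_of_pos_right hM (by positivity)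
      _ = 2 ^ (3 * t) := by rw [← pow_add]; congr 1; ring
  have hM'' : (toAny C').middle < 2 ^ (3 * t) := lt_of_le_of_lt (toAny_middle C') hM'
  -- the class of the gates
  have hclass : ∀ j, (toAny C').WideCylinder p S r j := by
    intro j
    obtain ⟨A, h1, h2, h3⟩ := toAny_cylinder C' hnar j
    refine ⟨A, h1, h2, fun b => ?_⟩
    rcases h3 b with h | h
    · exact Or.inr ((Finset.card_filter_le _ _).trans h)
    · exact Or.inl h
  -- the form
  obtain ⟨b, hb⟩ : ∃ b : ZMod 2, ∀ (s : Fin rr → ZMod 2)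
      (x : Fin (N - (2 * root N + rr)) → ZMod 2),
      C.Accepts (word N (root N) p ρ rr s x) ↔ Cyl.form p s x = b := by
    have hz : ∀ z : ZMod 2, z ≠ 1 ↔ z = 0 := by decide
    rcases hf with hf | hf
    · exact ⟨1, fun s x => by rw [hf, hslice]⟩
    · refine ⟨0, fun s x => ?_⟩
      rw [hf, ← hz, Ne, ← hslice s x, Bool.not_eq_true]
  have hbad : ((toAny C').middle : ℝ) * 𝔼 s : Fin rr → ZMod 2,
      𝔼 x : Fin (N - (2 * root N + rr)) → ZMod 2,
        (if (∃ b ∈ wideSet C r, ¬ ∃ l ∈ C.lits b,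
          l.eval (word N (root N) p ρ rr s x) = true) then (1 : ℝ) else 0) ≤ 1 / 8 := by
    have h1 := H81.cyl_bad_prob (N := N) (q := root N) (p := p) (ρ := ρ) (r := rr) C
      ⌈(N : ℝ) / r⌉₊ (wideSet C r) (fun b hb => by
        unfold wideSet at hb
        exact ceil_le_encard hr (Finset.mem_filter.1 hb).2)
    rw [card_wideSet] at h1
    have h2 : (1 / 2 : ℝ) ^ (⌈(N : ℝ) / r⌉₊ - 2 * root N) ≤ (1 / 2) ^ (4 * t + 3) :=
      pow_le_pow_of_le_one (by norm_num) (by norm_num) (by omega)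
    have h3 : ((toAny C').middle : ℝ) ≤ 2 ^ (3 * t) := by exact_mod_cast hM''.le
    have h4 : (C.wideCount r : ℝ) ≤ 2 ^ t := by exact_mod_cast hB.le
    calc ((toAny C').middle : ℝ) * _ ≤ 2 ^ (3 * t) * (2 ^ t * (1 / 2) ^ (4 * t + 3)) := by
          refine mul_le_mul h3 (h1.trans ?_) ?_ (by positivity)
          · exact mul_le_mul h4 h2 (by positivity) (by positivity)
          · exact Finset.expect_nonneg fun s _ => Finset.expect_nonneg fun x _ => by
              split_ifs <;> norm_num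
      _ = (2 ^ (4 * t) * (1 / 2) ^ (4 * t)) * (1 / 8) := by
          rw [show 4 * t = 3 * t + t by ring, pow_add, pow_add, pow_add]
          ring
      _ = 1 / 8 := by
          rw [← mul_pow]
          norm_num
  have hfinal := hmain (toAny C') hclass b
    (fun s x => ∃ b ∈ wideSet C r, ¬ ∃ l ∈ C.lits b,
      l.eval (word N (root N) p ρ rr s x) = true)
    (fun s x h => (toAny_accepts C' _).2 ((hacc _).2 (dropWide_accepts C r ((hb s x).2 h))))
    (fun s x h => (accepts_of_dropWide C r ((hacc _).1 ((toAny_accepts C' _).1 h))).imp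
      (hb s x).1 id) ?_
  · omega
  · convert hbad

end Vale.Agent.P336.R2.H836
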