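import Vale.Agent.P336.R2.H836.Almost

/-!
# P336: circuits whose bottom gates of critical width have limited views
-/

namespace Vale.Agent.P336

/-- The number of bottom gates which read at least `n / r` variables. -/
noncomputable def Circuit.wideCount {n : ℕ} (C : Circuit n) (r : ℕ) : ℕ :=
  {b : Fin C.bottom | (n : ℕ∞) ≤ r * (C.vars b).encard}.ncard

/-- The bottom gates of critical width of the middle gate `j` have limited views: there are sets
of variables `V 0, …, V (J - 1)`, each with at most `k` elements, the sum of their sizes is at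
most `W`, and every bottom gate which `j` reads, with at most `e` exceptions, reads at most `r`
variables, or at least `n / r` variables, or only reads variables of one of the sets. -/
def Circuit.CriticalViewed {n : ℕ} (C : Circuit n) (e r k W : ℕ) (j : Fin C.middle) : Prop :=
  ∃ (X : Finset (Fin C.bottom)) (J : ℕ) (V : Fin J → Finset (Fin n)), X.card ≤ e ∧
    (∀ t, (V t).card ≤ k) ∧ ∑ t, (V t).card ≤ W ∧
    ∀ b ∈ C.conj j, b ∈ X ∨ (C.vars b).encard ≤ r ∨ (n : ℕ∞) ≤ r * (C.vars b).encard ∨
      ∃ t, C.vars b ⊆ V t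

open Classical in
/-- The bottom gates of critical width of the middle gate `j` have `p`-local views: there are sets
of variables with at most `k` elements, every variable belongs to at most `w` of them, and every
bottom gate which `j` reads, with at most `e` exceptions, reads at most `r` variables, or at least
`n / r` variables, or only reads variables of the union of at most `p` of the sets. -/
def Circuit.CriticalLocal {n : ℕ} (C : Circuit n) (e r p k w : ℕ) (j : Fin C.middle) : Prop :=
  ∃ (X : Finset (Fin C.bottom)) (J : ℕ) (V : Fin J → Finset (Fin n)), X.card ≤ e ∧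
    (∀ t, (V t).card ≤ k) ∧ (∀ v, (Finset.univ.filter fun t => v ∈ V t).card ≤ w) ∧
    ∀ b ∈ C.conj j, b ∈ X ∨ (C.vars b).encard ≤ r ∨ (n : ℕ∞) ≤ r * (C.vars b).encard ∨
      ∃ T : Finset (Fin J), T.card ≤ p ∧ ∀ v ∈ C.vars b, ∃ t ∈ T, v ∈ V t

end Vale.Agent.P336

namespace Vale.Agent.P336.R2.H836

open Vale.Agent.P336

/-- The circuit without the bottom gates which read at least `n / r` variables. -/
def dropWide {n : ℕ} (C : Circuit n) (r : ℕ) : Circuit n where
  bottom := C.bottom
  middle := C.middle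
  lits := C.lits
  conj := fun j => {b | b ∈ C.conj j ∧ ¬ (n : ℕ∞) ≤ r * (C.vars b).encard}
  top := C.top

theorem dropWide_accepts {n : ℕ} (C : Circuit n) (r : ℕ) {y : Fin n → Bool} (h : C.Accepts y) :
    (dropWide C r).Accepts y := by
  obtain ⟨j, hj, h⟩ := h
  exact ⟨j, hj, fun b hb => h b hb.1⟩

open Classical in
/-- The wide bottom gates. -/
noncomputable def wideSet {n : ℕ} (C : Circuit n) (r : ℕ) : Finset (Fin C.bottom) :=
  Finset.univ.filter fun b => (n : ℕ∞) ≤ r * (C.vars b).encard

theorem card_wideSet {n : ℕ} (C : Circuit n) (r : ℕ) : (wideSet C r).card = C.wideCount r := by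
  unfold Circuit.wideCount
  rw [← Set.ncard_coe_finset]
  congr 1
  ext b
  simp [wideSet]

theorem accepts_of_dropWide {n : ℕ} (C : Circuit n) (r : ℕ) {y : Fin n → Bool}
    (h : (dropWide C r).Accepts y) :
    C.Accepts y ∨ ∃ b ∈ wideSet C r, ¬ ∃ l ∈ C.lits b, l.eval y = true := by
  by_cases hb : ∃ b ∈ wideSet C r, ¬ ∃ l ∈ C.lits b, l.eval y = true
  · exact Or.inr hb
  · refine Or.inl ?_
    obtain ⟨j, hj, h⟩ := h
    refine ⟨j, hj, fun b hbj => ?_⟩
    by_cases hw : (n : ℕ∞) ≤ r * (C.vars b).encard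
    · by_contra hs
      refine hb ⟨b, ?_, hs⟩
      unfold wideSet
      exact Finset.mem_filter.2 ⟨Finset.mem_univ _, hw⟩
    · exact h b ⟨hbj, hw⟩

theorem ceil_le_encard {n r : ℕ} {s : Set (Fin n)} (hr : 1 ≤ r) (h : (n : ℕ∞) ≤ r * s.encard) :
    ((⌈(n : ℝ) / r⌉₊ : ℕ) : ℕ∞) ≤ s.encard := by
  have hf : s.Finite := Set.toFinite s
  obtain ⟨c, hc⟩ : ∃ c : ℕ, s.encard = c := ⟨s.ncard, (Set.Finite.cast_ncard_eq hf).symm⟩
  rw [hc] at h ⊢
  have h1 : n ≤ r * c := by exact_mod_cast h
  have h2 : ⌈(n : ℝ) / r⌉₊ ≤ c := by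
    rw [Nat.ceil_le, div_le_iff₀ (by exact_mod_cast hr)]
    have h3 : ((n : ℕ) : ℝ) ≤ ((r * c : ℕ) : ℝ) := by exact_mod_cast h1
    push_cast at h3
    linarith
  exact_mod_cast h2

end Vale.Agent.P336.R2.H836
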