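import Vale.Agent.P336.R2.H836.Assembly2
import Vale.Agent.P336.R2.H444.WideMain
import Vale.Agent.P336.R2.H81.WideProb

/-!
# P336: the lower bound for circuits without bottom gates of critical width
-/

namespace Vale.Agent.P336.R2.H836

open Finset Expansion

section

variable {N p m : ℕ}

/-- The bottom gate `b` is satisfied. -/
def Sat2 (C : Circuit N) (p m : ℕ) (u : Fin N → Bool) (b : Fin C.bottom)
    (s : Fin (N / 4) → Bool) (x : Fin p × Fin m → Bool) : Prop :=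
  ∃ l ∈ C.lits b, l.eval (wordOf2 N p m u s x) = true

/-- If a bottom gate is not satisfied by `x₀`, the assignments which do not satisfy it are those
which agree with `x₀` on the variables it reads. -/
theorem not_sat2_iff (hsz : Nat.size N ≤ N / 4) (hpm : p * m ≤ N / 4) (C : Circuit N)
    (u : Fin N → Bool) (b : Fin C.bottom)
    (s : Fin (N / 4) → Bool) (x₀ : Fin p × Fin m → Bool) (h0 : ¬ Sat2 C p m u b s x₀)
    (x : Fin p × Fin m → Bool) :
    ¬ Sat2 C p m u b s x ↔ ∀ v ∈ H444.readSet hpm C b, x v = x₀ v := by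
  classical
  constructor
  · intro hx v hv
    unfold H444.readSet at hv
    rw [mem_filter] at hv
    obtain ⟨l, hl, hr⟩ := hv.2
    have h1 : l.eval (wordOf2 N p m u s x) ≠ true := fun h => hx ⟨l, hl, h⟩
    have h2 : l.eval (wordOf2 N p m u s x₀) ≠ true := fun h => h0 ⟨l, hl, h⟩
    cases l with
    | pos i =>
      have hi : pos hpm v = i := hr
      simp only [Lit.eval, ← hi, wordOf2_x hsz] at h1 h2
      revert h1 h2
      cases x v <;> cases x₀ v <;> simp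
    | neg i =>
      have hi : pos hpm v = i := hr
      simp only [Lit.eval, ← hi, wordOf2_x hsz] at h1 h2
      revert h1 h2
      cases x v <;> cases x₀ v <;> simp
    | const c => exact hr.elim
  · rintro hx ⟨l, hl, hle⟩
    refine h0 ⟨l, hl, ?_⟩
    rw [← hle]
    refine l.eval_congr fun t ht =>
      (wordOf2_congr hsz hpm u s x x₀ t fun v hv => hx v ?_).symm
    unfold H444.readSet
    rw [mem_filter]
    refine ⟨mem_univ _, l, hl, ?_⟩
    rw [← hv]
    exact ht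

/-- A bottom gate which does not read the changed variables keeps its value. -/
theorem sat2_mix (hsz : Nat.size N ≤ N / 4) (hpm : p * m ≤ N / 4) (C : Circuit N)
    (u : Fin N → Bool) (b : Fin C.bottom) (i : Fin p)
    (B : Finset (Fin m)) (hB : ∀ v ∈ B, pos hpm (i, v) ∉ C.vars b)
    (s : Fin (N / 4) → Bool) (x z : Fin p × Fin m → Bool) :
    Sat2 C p m u b s (mix (emb i B) x z) ↔ Sat2 C p m u b s x := by
  have h1 : ∀ l ∈ C.lits b, l.eval (wordOf2 N p m u s (mix (emb i B) x z)) =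
      l.eval (wordOf2 N p m u s x) := by
    intro l hl
    refine l.eval_congr fun v hv => wordOf2_mix hsz hpm u s x z _ v fun w hw hvw => ?_
    obtain ⟨hw1, hw2⟩ := mem_emb.1 hw
    refine hB w.2 hw2 ⟨l, hl, ?_⟩
    have h2 : (i, w.2) = w := by rw [← hw1]
    rw [h2, ← hvw]
    exact hv
  constructor
  · rintro ⟨l, hl, hle⟩
    exact ⟨l, hl, by rw [← h1 l hl]; exact hle⟩
  · rintro ⟨l, hl, hle⟩
    exact ⟨l, hl, by rw [h1 l hl]; exact hle⟩

open Classical in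
/-- The correlation of one middle gate with the form. -/
theorem gate_corr2 {r a f a₀ : ℕ} {q y β : ℝ} (hp1 : 1 ≤ p) (hsz : Nat.size N ≤ N / 4)
    (hpm : p * m ≤ N / 4) (hm1 : 1 ≤ m)
    (hq0 : 0 < q) (hq1 : q ≤ 1) (hrq : (r : ℝ) * q ≤ 1 / 2) (hy0 : 0 < y) (hy1 : y ≤ 1)
    (hβ0 : 0 ≤ β) (hβ : p * (1 / 2 : ℝ) ^ a ≤ β ^ 2 ^ p) (C : Circuit N) (u : Fin N → Bool)
    (j : Fin C.middle)
    (c : Fin C.bottom → Fin p) (A : Fin p → Finset (Fin m)) (hA : ∀ i, a₀ ≤ (A i).card)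
    (hr : ∀ b ∈ C.conj j, (C.vars b).encard ≤ r ∨ ∀ v ∈ A (c b), pos hpm (c b, v) ∉ C.vars b) :
    |E fun s : Fin (N / 4) → Bool => E fun x : Fin p × Fin m → Bool => sgn2 (form s x) *
      if ∀ b ∈ C.conj j, Sat2 C p m u b s x then (1 : ℝ) else 0| ≤
      2 * (p * 4 ^ (a + f) * ((1 + q / 4) / (1 + q)) ^ a₀ + (1 / 2) ^ f +
        y⁻¹ ^ f * (1 + q * y) ^ (p * m) * β) := by
  have h0 := corr_narrow (h := N / 4) (f := f) hp1 hpm hm1 hq0 hq1 hrq hy0 hy1 A hA
    (fun i s x => if ∀ b ∈ C.conj j, ¬ (C.vars b).encard ≤ r → c b = i → Sat2 C p m u b s x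
      then (1 : ℝ) else 0)
    (fun i s x => by split_ifs <;> simp)
    (fun i s x z => by
      refine if_congr ?_ rfl rfl
      refine forall_congr' fun b => forall_congr' fun hb => forall_congr' fun hn =>
        forall_congr' fun hci => ?_
      subst hci
      exact sat2_mix hsz hpm C u b (c b) (A (c b)) ((hr b hb).resolve_left hn) s x z)
    (fun s => (univ.filter fun b : Fin C.bottom => b ∈ C.conj j ∧ (C.vars b).encard ≤ r ∧
      ∃ x, ¬ Sat2 C p m u b s x).image Fin.val)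
    (fun s i => if hi : ∃ b : Fin C.bottom, (b : ℕ) = i ∧ ∃ x, ¬ Sat2 C p m u b s x then
      ⟨H444.readSet hpm C hi.choose, hi.choose_spec.2.choose⟩ else ⟨∅, fun _ => false⟩)
    ?_ hβ0 hβ
  · refine le_trans (le_of_eq ?_) h0
    congr 1
    refine congrArg E (funext fun s => congrArg E (funext fun x => ?_))
    congr 1
    have key : ∀ b : Fin C.bottom, (hb : ∃ x, ¬ Sat2 C p m u b s x) →
        ind (if hi : ∃ b' : Fin C.bottom, (b' : ℕ) = (b : ℕ) ∧ ∃ x, ¬ Sat2 C p m u b' s x then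
          ⟨H444.readSet hpm C hi.choose, hi.choose_spec.2.choose⟩ else ⟨∅, fun _ => false⟩) x =
        if Sat2 C p m u b s x then (1 : ℝ) else 0 := by
      intro b hb
      have hi : ∃ b' : Fin C.bottom, (b' : ℕ) = (b : ℕ) ∧ ∃ x, ¬ Sat2 C p m u b' s x := ⟨b, rfl, hb⟩
      rw [dif_pos hi]
      have hbb : hi.choose = b := Fin.ext hi.choose_spec.1
      have h1 := not_sat2_iff hsz hpm C u hi.choose s _ hi.choose_spec.2.choose_spec x
      unfold ind
      by_cases hs : Sat2 C p m u hi.choose s x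
      · rw [if_neg fun h => (h1.2 h) hs, if_pos (by rw [← hbb]; exact hs)]
      · rw [if_pos (h1.1 hs), if_neg (by rw [← hbb]; exact hs)]
    rw [Finset.prod_image (fun b _ b' _ h => Fin.ext h)]
    rw [Finset.prod_congr rfl fun b hb => key b (mem_filter.1 hb).2.2.2,
      Finset.prod_ite_zero, Finset.prod_ite_zero, Finset.prod_const_one, Finset.prod_const_one]
    by_cases hG : ∀ b ∈ C.conj j, Sat2 C p m u b s x
    · rw [if_pos hG, if_pos fun i _ b hb _ _ => hG b hb,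
        if_pos fun b hb => hG b (mem_filter.1 hb).2.1, mul_one]
    · rw [if_neg hG]
      by_cases hw : ∀ i ∈ (univ : Finset (Fin p)), ∀ b ∈ C.conj j, ¬ (C.vars b).encard ≤ r →
          c b = i → Sat2 C p m u b s x
      · rw [if_pos hw, one_mul, if_neg]
        intro hn
        refine hG fun b hb => ?_
        by_cases hb1 : (C.vars b).encard ≤ r
        · by_cases hb2 : ∃ x, ¬ Sat2 C p m u b s x
          · exact hn b (mem_filter.2 ⟨mem_univ _, hb, hb1, hb2⟩)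
          · push Not at hb2
            exact hb2 x
        · exact hw (c b) (mem_univ _) b hb hb1 rfl
      · rw [if_neg hw, zero_mul]
  · intro s i hi
    rw [mem_image] at hi
    obtain ⟨b, hb, rfl⟩ := hi
    have hb' := (mem_filter.1 hb).2
    have hi : ∃ b' : Fin C.bottom, (b' : ℕ) = (b : ℕ) ∧ ∃ x, ¬ Sat2 C p m u b' s x :=
      ⟨b, rfl, hb'.2.2⟩
    simp only [dif_pos hi]
    have hbb : hi.choose = b := Fin.ext hi.choose_spec.1
    rw [hbb]
    exact H444.card_readSet hpm C b hb'.2.1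

/-- **Many middle gates.**  The circuit `C` computes the slice or its complement; the circuit
`C₁` agrees with `C` unless a wide bottom gate of the set `B` is not satisfied. -/
theorem many_gates2 {r a f a₀ R : ℕ} {q y β : ℝ} (hp1 : 1 ≤ p) (hm : m = N / 4 / p)
    (hpm : p * m ≤ N / 4) (hp : p ≤ Nat.size N) (hsz : Nat.size N ≤ N / 4) (hm1 : 1 ≤ m)
    (ha : a ≤ m)
    (hq0 : 0 < q) (hq1 : q ≤ 1) (hrq : (r : ℝ) * q ≤ 1 / 2) (hy0 : 0 < y) (hy1 : y ≤ 1)
    (hβ0 : 0 ≤ β) (hβ : p * (1 / 2 : ℝ) ^ a ≤ β ^ 2 ^ p) (C C₁ : Circuit N)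
    (B : Finset (Fin C.bottom)) (hB : ∀ b ∈ B, (R : ℕ∞) ≤ (C.vars b).encard)
    (hCC : ∀ y, C.Accepts y → C₁.Accepts y)
    (hCC' : ∀ y, C₁.Accepts y → C.Accepts y ∨ ∃ b ∈ B, ¬ ∃ l ∈ C.lits b, l.eval y = true)
    (hC : ∀ j ∈ C₁.top, ∃ (c : Fin C₁.bottom → Fin p) (A : Fin p → Finset (Fin m)),
      (∀ i, a₀ ≤ (A i).card) ∧ ∀ b ∈ C₁.conj j, (C₁.vars b).encard ≤ r ∨
        ∀ v ∈ A (c b), pos hpm (c b, v) ∉ C₁.vars b)
    (e : Bool) (hf : ∀ x, C.Accepts x ↔ slice lang2 N x = e) :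
    1 ≤ (2 * (C₁.middle : ℝ) + 1) * (2 * (p * 4 ^ (a + f) * ((1 + q / 4) / (1 + q)) ^ a₀ +
      (1 / 2) ^ f + y⁻¹ ^ f * (1 + q * y) ^ (p * m) * β)) +
      2 * C₁.middle * (B.card * (1 / 2) ^ (R - Nat.size N)) := by
  classical
  have hB0 : 0 ≤ 2 * (p * 4 ^ (a + f) * ((1 + q / 4) / (1 + q)) ^ a₀ +
      (1 / 2) ^ f + y⁻¹ ^ f * (1 + q * y) ^ (p * m) * β) := by positivity
  have hβB : β ≤ 2 * (p * 4 ^ (a + f) * ((1 + q / 4) / (1 + q)) ^ a₀ +
      (1 / 2) ^ f + y⁻¹ ^ f * (1 + q * y) ^ (p * m) * β) := by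
    have h1 : (1 : ℝ) ≤ y⁻¹ ^ f := one_le_pow₀ ((one_le_inv₀ hy0).2 hy1)
    have h2 : (1 : ℝ) ≤ (1 + q * y) ^ (p * m) := one_le_pow₀ (by nlinarith)
    have h3 : β ≤ y⁻¹ ^ f * (1 + q * y) ^ (p * m) * β := by
      have h4 : (1 : ℝ) ≤ y⁻¹ ^ f * (1 + q * y) ^ (p * m) := one_le_mul_of_one_le_of_one_le h1 h2
      nlinarith
    have h5 : 0 ≤ (p : ℝ) * 4 ^ (a + f) * ((1 + q / 4) / (1 + q)) ^ a₀ := by positivity
    have h6 : (0 : ℝ) ≤ (1 / 2) ^ f := by positivity
    linarith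
  have hslice : ∀ u s x, C.Accepts (wordOf2 N p m u s x) ↔
      form s x = if e = true then 1 else 0 := by
    intro u s x
    rw [hf]
    have h2 := mem_lang2_wordOf2 hm hpm hp hsz u s x
    unfold slice
    cases e
    · rw [decide_eq_false_iff_not, h2, if_neg (by simp)]
      rcases zmod2_cases (form s x) with h3 | h3 <;> rw [h3] <;> simp
    · rw [decide_eq_true_iff, h2, if_pos rfl]
  have h0 := gates_bound2 (γ := Fin C₁.middle) (υ := Fin N → Bool) (h := N / 4)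
    (fun j u s x => j ∈ C₁.top ∧ ∀ b ∈ C₁.conj j, Sat2 C₁ p m u b s x)
    (fun u s x => ∃ b ∈ B, ¬ Sat2 C p m u b s x) (if e = true then 1 else 0)
    (fun u s x h => hCC _ ((hslice u s x).2 h))
    (fun u s x h => (hCC' _ h).imp (hslice u s x).1 id)
    (β := 2 * (p * 4 ^ (a + f) * ((1 + q / 4) / (1 + q)) ^ a₀ +
      (1 / 2) ^ f + y⁻¹ ^ f * (1 + q * y) ^ (p * m) * β))
    (δ := B.card * (1 / 2) ^ (R - Nat.size N)) ?_
    ((abs_bias_le hp1 hpm hm1 ha hβ0 hβ).trans hβB) ?_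
  · rw [Fintype.card_fin] at h0
    exact h0
  · intro j u
    by_cases hj : j ∈ C₁.top
    · obtain ⟨c, A, hA, hr⟩ := hC j hj
      have h1 := gate_corr2 (f := f) hp1 hsz hpm hm1 hq0 hq1 hrq hy0 hy1 hβ0 hβ C₁ u j c A hA hr
      simp only [hj, true_and]
      exact h1
    · simp only [hj, false_and, if_false, mul_zero]
      have h2 : (E fun _ : Fin (N / 4) → Bool => E fun _ : Fin p × Fin m → Bool => (0 : ℝ)) = 0 := by
        unfold E
        simp
      rw [h2, abs_zero]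
      exact hB0
  · refine (E_mono (g := fun u : Fin N → Bool => E fun s : Fin (N / 4) → Bool =>
      E fun x : Fin p × Fin m → Bool => ∑ b ∈ B,
        if (∃ l ∈ C.lits b, l.eval (wordOf2 N p m u s x) = true) then (0 : ℝ) else 1)
      fun u => E_mono fun s => E_mono fun x => ?_).trans ?_
    · split_ifs with h
      · obtain ⟨b, hb, hs⟩ := h
        refine le_trans (le_of_eq ?_) (Finset.single_le_sum
          (f := fun b => if (∃ l ∈ C.lits b, l.eval (wordOf2 N p m u s x) = true)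
            then (0 : ℝ) else 1) (fun b _ => ?_) hb)
        · exact (if_neg hs).symm
        · split_ifs <;> norm_num
      · exact Finset.sum_nonneg fun b _ => by split_ifs <;> norm_num
    · simp only [E_sum]
      refine (Finset.sum_le_sum (g := fun _ => (1 / 2 : ℝ) ^ (R - Nat.size N)) fun b hb => ?_).trans
        (le_of_eq ?_)
      · exact H81.wide_prob hpm C R b (hB b hb)
      · rw [Finset.sum_const, nsmul_eq_mul]

end

theorem size_le_quarter {N : ℕ} (hN : 20 ≤ N) : Nat.size N ≤ N / 4 := by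
  rw [Nat.size_le]
  have h1 : ∀ n : ℕ, 5 ≤ n → 4 * n + 4 ≤ 2 ^ n := by
    intro n hn
    induction n, hn using Nat.le_induction with
    | base => norm_num
    | succ n hn ih =>
      rw [pow_succ]
      omega
  have h2 := h1 (N / 4) (by omega)
  omega

/-- Half of the bound. -/
theorem half_bound {S : ℕ} {X δ : ℝ} (h : 1 ≤ (2 * (S : ℝ) + 1) * X + 2 * S * δ)
    (hδ : 4 * (S : ℝ) * δ ≤ 1) : 1 ≤ (2 * ((2 * S + 1 : ℕ) : ℝ) + 1) * X := by
  have hX : 0 < X := by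
    by_contra hX
    push Not at hX
    have : (2 * (S : ℝ) + 1) * X ≤ 0 := mul_nonpos_of_nonneg_of_nonpos (by positivity) hX
    linarith
  push_cast
  nlinarith [mul_nonneg (Nat.cast_nonneg S : (0 : ℝ) ≤ S) hX.le]

/-- **Wide views, second version.** -/
theorem wide_main2 : ∃ C₀ : ℝ, ∀ N w k r : ℕ, 1 ≤ w → 1 ≤ k → 1 ≤ r →
    (k : ℝ) * (2 : ℝ) ^ (C₀ * Real.sqrt w) ≤ N → (r : ℝ) * (2 : ℝ) ^ (C₀ * Real.sqrt w) ≤ N →
    ∀ (C C₁ : Circuit N) (R : ℕ) (B : Finset (Fin C.bottom)),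
    (∀ b ∈ B, (R : ℕ∞) ≤ (C.vars b).encard) → (∀ y, C.Accepts y → C₁.Accepts y) →
    (∀ y, C₁.Accepts y → C.Accepts y ∨ ∃ b ∈ B, ¬ ∃ l ∈ C.lits b, l.eval y = true) →
    (∀ j ∈ C₁.top, C₁.WideViewed r k (w * N) j) →
    ((∀ x, C.Accepts x ↔ slice lang2 N x = true) ∨
      (∀ x, C.Accepts x ↔ slice lang2 N x = false)) →
    4 * (C₁.middle : ℝ) * (B.card * (1 / 2) ^ (R - Nat.size N)) ≤ 1 →
    (2 : ℝ) ^ ((N : ℝ) / (r * (2 : ℝ) ^ (C₀ * Real.sqrt w))) ≤ 2 * C₁.middle + 1 := by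
  obtain ⟨K, _, hK⟩ := H842.numerics_wide
  obtain ⟨C₀, hC₀⟩ := H946.numerics_outer K
  refine ⟨C₀, fun N w k r hw hk hr hkN hrN C C₁ R B hB hCC hCC' hV hC hδ => ?_⟩
  obtain ⟨p, m, hp4, hm, hpm, hpN, hwN, hkm, hrm, hfin⟩ := hC₀ N w k r hw hk hr hkN hrN
  have hm1 : 1 ≤ m := le_trans (Nat.mul_pos hk (by positivity)) hkm
  have hmN : m ≤ N := by
    rw [hm]
    exact (Nat.div_le_self _ _).trans (Nat.div_le_self _ _)
  have h2p : 2 ^ (20 * p) ≤ N :=
    (Nat.le_mul_of_pos_left _ hk).trans (hkm.trans hmN)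
  have hpsz : p ≤ Nat.size N := by
    have h1 : 20 * p < Nat.size N := Nat.lt_size.2 h2p
    omega
  have hsz : Nat.size N ≤ N / 4 := by
    refine size_le_quarter (le_trans ?_ h2p)
    calc 20 ≤ 2 ^ (20 * 4) := by norm_num
      _ ≤ 2 ^ (20 * p) := Nat.pow_le_pow_right (by norm_num) (by omega)
  have h9 : 0 < 2 ^ (9 * p) := by positivity
  obtain ⟨a₀, ha2, ha3⟩ : ∃ a : ℕ, m ≤ 2 ^ (9 * p) * a ∧
      ∀ b, m ≤ 2 ^ (9 * p) * b → a ≤ b := by
    have hex : ∃ b, m ≤ 2 ^ (9 * p) * b := ⟨m, Nat.le_mul_of_pos_left m h9⟩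
    exact ⟨Nat.find hex, Nat.find_spec hex, fun b hb => Nat.find_min' hex hb⟩
  obtain ⟨a, f, q, y, β, ham, hq0, hq1, hrq, hy0, hy1, hβ0, hβ, hS⟩ := hK p m r a₀ hp4 hr hrm ha2
  have hmain : ∀ j ∈ C₁.top, ∃ (c : Fin C₁.bottom → Fin p) (A : Fin p → Finset (Fin m)),
      (∀ i, a₀ ≤ (A i).card) ∧ ∀ b ∈ C₁.conj j, (C₁.vars b).encard ≤ r ∨
        ∀ v ∈ A (c b), pos hpm (c b, v) ∉ C₁.vars b := by
    classical
    intro j hj
    obtain ⟨J, V, hVk, hVW, hVr⟩ := hV j hj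
    have hcard : ∀ t, (univ.filter fun v : Fin p × Fin m => pos hpm v ∈ V t).card ≤
        (V t).card := by
      intro t
      refine Finset.card_le_card_of_injOn (pos hpm) (fun v hv => ?_)
        ((pos_injective hpm).injOn)
      exact (Finset.mem_filter.1 hv).2
    obtain ⟨c, A, hA, hcA⟩ := H524.exists_classes hp4 hk
      (fun t : Fin J => univ.filter fun v : Fin p × Fin m => pos hpm v ∈ V t)
      (fun t => (hcard t).trans (hVk t))
      ((Finset.sum_le_sum fun t _ => hcard t).trans (hVW.trans hwN)) hkm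
    refine ⟨fun b => if h : ∃ t, C₁.vars b ⊆ V t
      then c h.choose else ⟨0, by omega⟩, A, fun i => ha3 _ (hA i), ?_⟩
    intro b hb
    rcases hVr b hb with h | h
    · exact Or.inl h
    · refine Or.inr fun v hv hr => ?_
      simp only [dif_pos h] at hv hr
      exact hcA h.choose v hv (Finset.mem_filter.2 ⟨Finset.mem_univ _, h.choose_spec hr⟩)
  have hfin2 : (2 : ℝ) ^ ((N : ℝ) / (r * (2 : ℝ) ^ (C₀ * Real.sqrt w))) ≤
      ((2 * C₁.middle + 1 : ℕ) : ℝ) := by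
    refine (Real.rpow_le_rpow_of_exponent_le (by norm_num) hfin).trans
      (hS (2 * C₁.middle + 1) ?_)
    rcases hC with h | h
    · exact half_bound (many_gates2 (by omega) hm hpm hpsz hsz hm1 ham hq0 hq1 hrq hy0 hy1 hβ0 hβ
        C C₁ B hB hCC hCC' hmain true h) hδ
    · exact half_bound (many_gates2 (by omega) hm hpm hpsz hsz hm1 ham hq0 hq1 hrq hy0 hy1 hβ0 hβ
        C C₁ B hB hCC hCC' hmain false h) hδ
  push_cast at hfin2
  exact hfin2

end Vale.Agent.P336.R2.H836
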