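import Vale.Agent.P336.R2.H836.Critical
import Vale.Agent.P336.R2.H836.WideMain2
import Vale.Agent.P336.R2.H946.Finish

/-!
# P336: the lower bound for circuits whose bottom gates of critical width have limited views
-/

namespace Vale.Agent.P336.R2.H836

open Vale.Agent.P336

theorem one_le_log {N : ℕ} (hN : 16 ≤ N) : 1 ≤ Real.log N := by
  have h1 : Real.exp 1 ≤ N := by
    have h2 : (16 : ℝ) ≤ N := by exact_mod_cast hN
    have := Real.exp_one_lt_d9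
    linarith
  have h2 := Real.log_le_log (Real.exp_pos 1) h1
  rwa [Real.log_exp] at h2

theorem critical_main : ∃ C₀ : ℝ, ∀ N w k r e : ℕ, 1 ≤ w → 1 ≤ k → 1 ≤ r → 1 ≤ e →
    (k : ℝ) * (2 : ℝ) ^ (C₀ * Real.sqrt w) ≤ N →
    (e : ℝ) * Real.log N * (r * (2 : ℝ) ^ (C₀ * Real.sqrt w)) ≤ N →
    ∀ C : Circuit N, (∀ j ∈ C.top, C.CriticalViewed e r k (w * N) j) →
    ((∀ x, C.Accepts x ↔ slice lang2 N x = true) ∨
      (∀ x, C.Accepts x ↔ slice lang2 N x = false)) →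
    (2 : ℝ) ^ ((N : ℝ) / (r * (2 : ℝ) ^ (C₀ * Real.sqrt w))) ≤
      (max C.middle (C.wideCount r) : ℕ) := by
  obtain ⟨C₀, hC₀⟩ := wide_main2
  refine ⟨max C₀ 0 + 6, fun N w k r e hw hk hr he hkN heN C hV hC => ?_⟩
  have hw1 : (1 : ℝ) ≤ Real.sqrt w := by
    rw [Real.one_le_sqrt]
    exact_mod_cast hw
  have hr1 : (1 : ℝ) ≤ r := by exact_mod_cast hr
  have he1 : (1 : ℝ) ≤ e := by exact_mod_cast he
  have hk1 : (1 : ℝ) ≤ k := by exact_mod_cast hk
  have hmax0 : 0 ≤ max C₀ 0 * Real.sqrt w := mul_nonneg (le_max_right _ _) (Real.sqrt_nonneg _)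
  obtain ⟨Z₀, hZ₀⟩ : ∃ Z₀ : ℝ, Z₀ = (2 : ℝ) ^ (max C₀ 0 * Real.sqrt w) := ⟨_, rfl⟩
  obtain ⟨Z, hZ⟩ : ∃ Z : ℝ, Z = (2 : ℝ) ^ ((max C₀ 0 + 6) * Real.sqrt w) := ⟨_, rfl⟩
  rw [← hZ] at hkN heN ⊢
  have hZ₀1 : 1 ≤ Z₀ := by
    rw [hZ₀]
    exact Real.one_le_rpow (by norm_num) hmax0
  have h64 : 64 * Z₀ ≤ Z := by
    have e1 : (64 : ℝ) = (2 : ℝ) ^ (6 : ℝ) := by norm_num
    rw [hZ₀, hZ, e1, ← Real.rpow_add (by norm_num)]
    refine Real.rpow_le_rpow_of_exponent_le (by norm_num) ?_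
    linarith
  have hle : (2 : ℝ) ^ (C₀ * Real.sqrt w) ≤ Z₀ := by
    rw [hZ₀]
    exact Real.rpow_le_rpow_of_exponent_le (by norm_num)
      (mul_le_mul_of_nonneg_right (le_max_left _ _) (Real.sqrt_nonneg _))
  have hleZ : (2 : ℝ) ^ (C₀ * Real.sqrt w) ≤ Z := by linarith
  have hZpos : 0 < Z := by linarith
  have hpos : (0 : ℝ) < (2 : ℝ) ^ (C₀ * Real.sqrt w) := by positivity
  have hZN : Z ≤ N := by nlinarith
  have hN : 16 ≤ N := by
    have h1 : (16 : ℝ) ≤ N := by linarith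
    exact_mod_cast h1
  have hlog := one_le_log hN
  have hrN : (r : ℝ) * Z ≤ N := by
    have h1 : 1 * ((r : ℝ) * Z) ≤ (e : ℝ) * Real.log N * (r * Z) := by
      refine mul_le_mul_of_nonneg_right ?_ (by positivity)
      nlinarith
    linarith
  -- drop the wide gates, replace the exceptional gates
  have hV1 : ∀ j ∈ (dropWide C r).top, (dropWide C r).AlmostViewed e r k (w * N) j := by
    intro j hj
    obtain ⟨X, J, V, hX, hVk, hVW, hVb⟩ := hV j hj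
    refine ⟨X, J, V, hX, hVk, hVW, fun b hb => ?_⟩
    rcases hVb b hb.1 with h | h | h | h
    · exact Or.inl h
    · exact Or.inr (Or.inl h)
    · exact absurd h hb.2
    · exact Or.inr (Or.inr h)
  obtain ⟨C₁, hacc, hmid, hV2⟩ := reduce_viewed hr (dropWide C r) hV1
  have hmid' : C₁.middle ≤ C.middle * (2 * N + 2) ^ e := hmid
  refine H946.finish hZ₀1 h64 hN hr he heN (R := ⌈(N : ℝ) / r⌉₊) (Nat.le_ceil _) hmid'
    fun hδ => ?_
  rw [← card_wideSet] at hδ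
  have h1 := hC₀ N w k r hw hk hr
    ((mul_le_mul_of_nonneg_left hleZ (Nat.cast_nonneg k)).trans hkN)
    ((mul_le_mul_of_nonneg_left hleZ (Nat.cast_nonneg r)).trans hrN)
    C C₁ ⌈(N : ℝ) / r⌉₊ (wideSet C r) (fun b hb => ?_)
    (fun y hy => (hacc y).2 (dropWide_accepts C r hy))
    (fun y hy => accepts_of_dropWide C r ((hacc y).1 hy)) hV2 hC hδ
  · refine le_trans (Real.rpow_le_rpow_of_exponent_le (by norm_num) ?_) h1
    exact div_le_div_of_nonneg_left (Nat.cast_nonneg N) (by positivity)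
      (mul_le_mul_of_nonneg_left hle (Nat.cast_nonneg r))
  · unfold wideSet at hb
    exact ceil_le_encard hr (Finset.mem_filter.1 hb).2

end Vale.Agent.P336.R2.H836
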