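import Vale.Agent.P336.R2.H746.WMain

/-!
# P336: covers of almost all points by wide cylinder gates
-/

namespace Vale.Agent.P336.Cyl

open Finset Vale.Agent.P336.H746
open scoped BigOperators

section

variable {p r m ℓ : ℕ}

open Classical in
/-- The lower bound from the correlations of the gates, for covers which are correct except on the
bad inputs. -/
theorem cover_miss (hbal : 𝔼 s : Fin r → ZMod 2, |𝔼 x : Fin m → ZMod 2, sgn (form p s x)| ≤ 1 / 2)
    (t : ℕ) {M : ℕ} (γ : Fin M → (Fin r → ZMod 2) → (Fin m → ZMod 2) → Prop) (b : ZMod 2)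
    (Bad : (Fin r → ZMod 2) → (Fin m → ZMod 2) → Prop)
    (Miss : (Fin r → ZMod 2) → (Fin m → ZMod 2) → Prop)
    (h1 : ∀ s x, form p s x = b → (∃ j, γ j s x) ∨ Miss s x)
    (h2 : ∀ s x, (∃ j, γ j s x) → form p s x = b ∨ Bad s x)
    (hbad : M * 𝔼 s : Fin r → ZMod 2, 𝔼 x : Fin m → ZMod 2, (if Bad s x then (1 : ℝ) else 0) ≤
      1 / 8)
    (hmiss : 𝔼 s : Fin r → ZMod 2, 𝔼 x : Fin m → ZMod 2, (if Miss s x then (1 : ℝ) else 0) ≤ 1 / 16)
    (hgate : ∀ j, 𝔼 s : Fin r → ZMod 2, |𝔼 x : Fin m → ZMod 2,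
      (if γ j s x then (1 : ℝ) else 0) * sgn (form p s x)| ≤ (1 / 2 : ℝ) ^ (t + 3)) :
    2 ^ t ≤ 2 * M := by
  -- the accepted inputs
  have hd : ∀ z : ZMod 2, z = 0 ∨ z = 1 := by decide
  have hcov : ∀ s x, (if form p s x = b then (1 : ℝ) else 0) -
      (if Miss s x then (1 : ℝ) else 0) - M * (if Bad s x then (1 : ℝ) else 0) ≤
      sgn b * ∑ j, (if γ j s x then (1 : ℝ) else 0) * sgn (form p s x) := by
    intro s x
    rw [← Finset.sum_mul]
    set W : ℝ := ∑ j, (if γ j s x then (1 : ℝ) else 0) with hW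
    have hW0 : 0 ≤ W := Finset.sum_nonneg fun j _ => by split_ifs <;> norm_num
    have hWM : W ≤ M := by
      calc W ≤ ∑ _j : Fin M, (1 : ℝ) := Finset.sum_le_sum fun j _ => by split_ifs <;> norm_num
        _ = M := by simp
    have hB0 : (0 : ℝ) ≤ M * (if Bad s x then (1 : ℝ) else 0) := by
      split_ifs <;> positivity
    have hM0 : (0 : ℝ) ≤ (if Miss s x then (1 : ℝ) else 0) := by
      split_ifs <;> norm_num
    by_cases hf : form p s x = b
    · rw [if_pos hf, hf]
      have : sgn b * (W * sgn b) = W := by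
        rcases hd b with rfl | rfl <;> simp [sgn]
      rw [this]
      rcases h1 s x hf with ⟨j, hj⟩ | hmi
      · have hW1 : 1 ≤ W := by
          calc (1 : ℝ) = (if γ j s x then (1 : ℝ) else 0) := by rw [if_pos hj]
            _ ≤ W := Finset.single_le_sum (f := fun j => (if γ j s x then (1 : ℝ) else 0))
              (fun j _ => by split_ifs <;> norm_num) (mem_univ j)
        linarith
      · rw [if_pos hmi]
        linarith
    · rw [if_neg hf]
      have hs : sgn b * (W * sgn (form p s x)) = -W := by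
        rcases hd b with rfl | rfl <;> rcases hd (form p s x) with h | h
        · exact absurd h hf
        · rw [h]; simp [sgn]
        · rw [h]; simp [sgn]
        · exact absurd h hf
      rw [hs]
      by_cases hB : Bad s x
      · rw [if_pos hB]
        linarith
      · have : W = 0 := Finset.sum_eq_zero fun j _ => by
          rw [if_neg]
          intro hj
          rcases h2 s x ⟨j, hj⟩ with h | h
          · exact hf h
          · exact hB h
        rw [this, if_neg hB]
        simp only [mul_zero, neg_zero, sub_zero, zero_sub]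
        linarith
  have hval : ∀ (s : Fin r → ZMod 2) (x : Fin m → ZMod 2), (if form p s x = b then (1 : ℝ) else 0) =
      (1 + sgn b * sgn (form p s x)) / 2 := by
    intro s x
    rcases hd b with rfl | rfl <;> rcases hd (form p s x) with h | h <;> rw [h] <;>
      simp [sgn]
  have h4 : (1 / 4 : ℝ) ≤ 𝔼 s : Fin r → ZMod 2, 𝔼 x : Fin m → ZMod 2,
      (if form p s x = b then (1 : ℝ) else 0) := by
    have h3 : ∀ s : Fin r → ZMod 2, (1 - |𝔼 x : Fin m → ZMod 2, sgn (form p s x)|) / 2 ≤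
        𝔼 x : Fin m → ZMod 2, (if form p s x = b then (1 : ℝ) else 0) := by
      intro s
      simp only [hval]
      have h4 : 𝔼 x : Fin m → ZMod 2, (1 + sgn b * sgn (form p s x)) / 2 =
          (1 + sgn b * 𝔼 x : Fin m → ZMod 2, sgn (form p s x)) / 2 := by
        rw [← Finset.expect_div, Finset.expect_add_distrib, Fintype.expect_const,
          ← Finset.mul_expect]
      rw [h4]
      have h5 : -|𝔼 x : Fin m → ZMod 2, sgn (form p s x)| ≤
          sgn b * 𝔼 x : Fin m → ZMod 2, sgn (form p s x) := by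
        have := neg_abs_le (sgn b * (𝔼 x : Fin m → ZMod 2, sgn (form p s x)))
        rwa [abs_mul, abs_sgn, one_mul] at this
      linarith
    refine le_trans ?_ (Finset.expect_le_expect fun s _ => h3 s)
    rw [← Finset.expect_div, Finset.expect_sub_distrib, Fintype.expect_const]
    linarith
  have h3 : (𝔼 s : Fin r → ZMod 2, 𝔼 x : Fin m → ZMod 2,
      (if form p s x = b then (1 : ℝ) else 0)) -
      (𝔼 s : Fin r → ZMod 2, 𝔼 x : Fin m → ZMod 2, (if Miss s x then (1 : ℝ) else 0)) -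
      M * 𝔼 s : Fin r → ZMod 2, 𝔼 x : Fin m → ZMod 2, (if Bad s x then (1 : ℝ) else 0) ≤
      M * (1 / 2 : ℝ) ^ (t + 3) := by
    calc (𝔼 s : Fin r → ZMod 2, 𝔼 x : Fin m → ZMod 2,
          (if form p s x = b then (1 : ℝ) else 0)) -
          (𝔼 s : Fin r → ZMod 2, 𝔼 x : Fin m → ZMod 2, (if Miss s x then (1 : ℝ) else 0)) -
          M * 𝔼 s : Fin r → ZMod 2, 𝔼 x : Fin m → ZMod 2, (if Bad s x then (1 : ℝ) else 0)
        = 𝔼 s : Fin r → ZMod 2, 𝔼 x : Fin m → ZMod 2,
          ((if form p s x = b then (1 : ℝ) else 0) - (if Miss s x then (1 : ℝ) else 0) -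
            M * (if Bad s x then (1 : ℝ) else 0)) := by
          simp only [Finset.expect_sub_distrib, ← Finset.mul_expect]
      _ ≤ 𝔼 s : Fin r → ZMod 2, 𝔼 x : Fin m → ZMod 2,
          sgn b * ∑ j, (if γ j s x then (1 : ℝ) else 0) * sgn (form p s x) :=
          Finset.expect_le_expect fun s _ => Finset.expect_le_expect fun x _ => hcov s x
      _ = ∑ j, 𝔼 s : Fin r → ZMod 2, sgn b * 𝔼 x : Fin m → ZMod 2,
          (if γ j s x then (1 : ℝ) else 0) * sgn (form p s x) := by
          simp only [← Finset.mul_expect, Finset.expect_sum_comm, Finset.mul_sum]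
      _ ≤ ∑ _j : Fin M, (1 / 2 : ℝ) ^ (t + 3) := by
          refine Finset.sum_le_sum fun j _ => le_trans ?_ (hgate j)
          refine Finset.expect_le_expect fun s _ => ?_
          refine (le_abs_self _).trans ?_
          rw [abs_mul, abs_sgn, one_mul]
      _ = M * (1 / 2 : ℝ) ^ (t + 3) := by simp
  have h5 : (2 : ℝ) ^ t * (1 / 2) ^ t = 1 := by rw [← mul_pow]; norm_num
  have h6 : (2 : ℝ) ^ t ≤ 2 * M := by
    have h6 : (1 / 16 : ℝ) ≤ M * (1 / 2 : ℝ) ^ (t + 3) := by linarith
    have h7 : (2 : ℝ) ^ t * (1 / 16) ≤ 2 ^ t * (M * (1 / 2 : ℝ) ^ (t + 3)) :=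
      mul_le_mul_of_nonneg_left h6 (by positivity)
    have h8 : (2 : ℝ) ^ t * (M * (1 / 2 : ℝ) ^ (t + 3)) = M / 8 * (2 ^ t * (1 / 2) ^ t) := by
      rw [pow_add]; ring
    rw [h8, h5] at h7
    linarith
  exact_mod_cast h6

end

open Classical in
/-- **Wide cylinder gates**, for circuits which are correct on the words of the distribution except
for the bad ones. -/
theorem wmain_miss :
    ∃ K : ℕ, ∀ N p S R t : ℕ, 1 ≤ N → 2 ≤ p → 1 ≤ R → 1 ≤ t →
      K * R * p ^ 2 * 2 ^ p * N * t ≤ S ^ 2 → p * S ≤ N →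
      ∃ ρ r : ℕ, r = p * (ρ * root N) ∧ 0 < r ∧ 2 * root N + r + r ≤ N ∧
        (∀ (s : Fin r → ZMod 2) (x : Fin (N - (2 * root N + r)) → ZMod 2),
          slice lang N (word N (root N) p ρ r s x) = true ↔ form p s x = 1) ∧
        ∀ C : AnyCircuit N, (∀ j, C.WideCylinder p S R j) → ∀ (b : ZMod 2)
          (Bad Miss : (Fin r → ZMod 2) → (Fin (N - (2 * root N + r)) → ZMod 2) → Prop),
          (∀ s x, form p s x = b → C.Accepts (word N (root N) p ρ r s x) ∨ Miss s x) →
          (∀ s x, C.Accepts (word N (root N) p ρ r s x) → form p s x = b ∨ Bad s x) →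
          (C.middle : ℝ) * 𝔼 s : Fin r → ZMod 2, 𝔼 x : Fin (N - (2 * root N + r)) → ZMod 2,
            (if Bad s x then (1 : ℝ) else 0) ≤ 1 / 8 →
          𝔼 s : Fin r → ZMod 2, 𝔼 x : Fin (N - (2 * root N + r)) → ZMod 2,
            (if Miss s x then (1 : ℝ) else 0) ≤ 1 / 16 →
          2 ^ t ≤ 2 * C.middle := by
  obtain ⟨K, hK⟩ := Vale.Agent.P336.R2.H597.numerics
  obtain ⟨K', hK'⟩ := Vale.Agent.P336.R2.H597.weights
  refine ⟨K * (K' + 1), fun N p S R t hN hp hR ht hKt hpS => ?_⟩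
  set t' : ℕ := (K' + 1) * R * p * t with ht'
  have hp0 : 0 < p := by omega
  have htt' : t ≤ t' := by
    have : 1 ≤ (K' + 1) * R * p := Nat.mul_pos (Nat.mul_pos (Nat.succ_pos _) (by omega)) hp0
    calc t = 1 * t := (one_mul t).symm
      _ ≤ (K' + 1) * R * p * t := Nat.mul_le_mul_right t this
  obtain ⟨ρ, ℓ, r, a, hpq, hρq, hℓ, hr, hℓ0, hrN, hta, haℓ, hSa⟩ :=
    hK N p S t' hp (ht.trans htt') hN
      (by
        calc K * p * 2 ^ p * N * t' = K * (K' + 1) * R * p ^ 2 * 2 ^ p * N * t := by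
              rw [ht']; ring
          _ ≤ S ^ 2 := hKt) hpS (root N) (root_mul_le N) (lt_root_succ N)
  have hr0 : 0 < r := by rw [hr]; exact Nat.mul_pos hp0 hℓ0
  have hmem := fun s x => mem_lang_word (N := N) (q := root N) (p := p) (ρ := ρ) (r := r) rfl
    (by rw [hr, hℓ]) hpq hρq hr0 (by omega) s x
  refine ⟨ρ, r, by rw [hr, hℓ], hr0, hrN, fun s x => ?_, fun C hC b Bad Miss h1 h2 hbad hmiss => ?_⟩
  · rw [← hmem s x]
    unfold slice
    rw [decide_eq_true_iff]
  · have h3 : 2 ^ p * (t + 3) + p ≤ 2 ^ p * (t' + 3) + p :=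
      Nat.add_le_add_right (Nat.mul_le_mul_left _ (by omega)) _
    refine cover_miss (m := N - (2 * root N + r))
      (form_balanced hp0 hℓ0 hr (by omega) t (h3.trans (hta.trans haℓ))) t
      (fun j s x => ∀ i, C.fn j i (word N (root N) p ρ r s x) = true) b Bad Miss h1 h2 hbad
      hmiss fun j => ?_
    obtain ⟨A, hAS, hAd, hAb⟩ := hC j
    have hwin : ∀ i, ∃ o, a ≤ ((univ.filter fun v : Fin (N - (2 * root N + r)) =>
        dpos v ∈ A i).filter
        fun v : Fin (N - (2 * root N + r)) => o ≤ (v : ℕ) ∧ (v : ℕ) < o + ℓ).card := by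
      intro i
      refine exists_window (N := N) hℓ0 _ (by omega) (hSa.trans ?_)
      exact (Nat.sub_le_sub_right (hAS i) _).trans (card_data_ge (A i))
    choose o ho using hwin
    have ha : K' * R * p * 2 ^ p * t ≤ a := by
      have h4 : 2 ^ p * t' ≤ a :=
        (Nat.mul_le_mul_left _ (Nat.le_add_right t' 3)).trans ((Nat.le_add_right _ _).trans hta)
      refine le_trans ?_ h4
      rw [ht']
      calc K' * R * p * 2 ^ p * t ≤ (K' + 1) * R * p * 2 ^ p * t := by gcongr; omega
        _ = 2 ^ p * ((K' + 1) * R * p * t) := by ring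
    obtain ⟨f, u, w, hw0, hRw, hws⟩ := hK' p R t (K' * R * p * 2 ^ p * t) hp hR ht rfl
    have h5 := gate_le (a := K' * R * p * 2 ^ p * t) (t := t) (R := R) (p := p)
      ⟨f, u, w, hw0, hRw, by unfold wsum; convert hws⟩ (q := root N) (ρ := ρ) hp0 hℓ0 hr C j A hAd
      (fun b => by convert hAb b) o (fun i => by convert ha.trans (ho i))
    convert h5

end Vale.Agent.P336.Cyl
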