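import Vale.Agent.P336.R2.H836.WideViews

/-!
# P336: a few exceptional bottom gates in every middle gate can be replaced by literals
-/

namespace Vale.Agent.P336

/-- The literals and constants as a finite type. -/
def Lit.toSum {n : ℕ} : Lit n → (Fin n ⊕ Fin n) ⊕ Bool
  | .pos i => Sum.inl (Sum.inl i)
  | .neg i => Sum.inl (Sum.inr i)
  | .const b => Sum.inr b

theorem Lit.toSum_injective {n : ℕ} : Function.Injective (Lit.toSum (n := n)) := by
  intro a b h
  cases a <;> cases b <;> simp_all [Lit.toSum]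

end Vale.Agent.P336

namespace Vale.Agent.P336.R2.H836

open Vale.Agent.P336

/-- A circuit with gates indexed by finite types. -/
theorem exists_circuit_of_types {n : ℕ} {α γ : Type} [Fintype α] [Fintype γ]
    (L : α → Set (Lit n)) (K : γ → Set α) (T : Set γ) :
    ∃ (C : Circuit n) (e : α ≃ Fin C.bottom) (d : γ ≃ Fin C.middle),
      C.middle = Fintype.card γ ∧ (∀ a, C.lits (e a) = L a) ∧
      (∀ g, C.conj (d g) = e '' K g) ∧ C.top = d '' T := by
  refine ⟨{ bottom := Fintype.card α, middle := Fintype.card γ,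
            lits := fun i => L ((Fintype.equivFin α).symm i),
            conj := fun j => (Fintype.equivFin α) '' K ((Fintype.equivFin γ).symm j),
            top := (Fintype.equivFin γ) '' T }, Fintype.equivFin α, Fintype.equivFin γ, rfl,
          fun a => ?_, fun g => ?_, rfl⟩
  · simp
  · simp

/-- Replace the exceptional bottom gates by literals. -/
theorem exists_reduced {N e : ℕ} (C : Circuit N) (X : Fin C.middle → Finset (Fin C.bottom))
    (hX : ∀ j, (X j).card ≤ e) :
    ∃ C' : Circuit N, (∀ x, C'.Accepts x ↔ C.Accepts x) ∧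
      C'.middle ≤ C.middle * (2 * N + 2) ^ e ∧
      ∀ j' ∈ C'.top, ∃ j ∈ C.top, ∀ b' ∈ C'.conj j', (C'.vars b').encard ≤ 1 ∨
        ∃ b ∈ C.conj j, b ∉ X j ∧ C'.vars b' = C.vars b := by
  classical
  have : Fintype (Lit N) := Fintype.ofInjective _ Lit.toSum_injective
  have hcard : Fintype.card (Lit N) ≤ 2 * N + 2 := by
    refine (Fintype.card_le_of_injective _ Lit.toSum_injective).trans (le_of_eq ?_)
    simp
    ring
  have hι : ∀ j, ∃ ι : Fin C.bottom → Fin e ⊕ Unit, ∀ b ∈ X j, ∃ i, ι b = Sum.inl i ∧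
      ∀ b' ∈ X j, ι b' = Sum.inl i → b' = b := by
    intro j
    obtain ⟨f⟩ : Nonempty (X j ↪ Fin e) := by
      rw [Function.Embedding.nonempty_iff_card_le, Fintype.card_coe, Fintype.card_fin]
      exact hX j
    refine ⟨fun b => if h : b ∈ X j then Sum.inl (f ⟨b, h⟩) else Sum.inr (), fun b hb => ?_⟩
    refine ⟨f ⟨b, hb⟩, dif_pos hb, fun b' hb' h => ?_⟩
    simp only [dif_pos hb'] at h
    have h2 := f.injective (Sum.inl_injective h)
    exact congrArg Subtype.val h2
  choose ι hι using hι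
  -- the value of a choice at an exceptional gate
  let val : (Fin e → Lit N) → Fin e ⊕ Unit → Lit N := fun τ i =>
    Sum.elim τ (fun _ => Lit.const false) i
  obtain ⟨C', eb, dm, hmid, hlits, hconj, htop⟩ := exists_circuit_of_types
    (α := Fin C.bottom ⊕ Lit N) (γ := Fin C.middle × (Fin e → Lit N))
    (fun a => Sum.elim C.lits (fun l => {l}) a)
    (fun g => {a | (∃ b ∈ C.conj g.1, b ∉ X g.1 ∧ a = Sum.inl b) ∨
      (∃ b ∈ C.conj g.1, b ∈ X g.1 ∧ a = Sum.inr (val g.2 (ι g.1 b)))})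
    {g | g.1 ∈ C.top ∧ ∀ b ∈ C.conj g.1, b ∈ X g.1 → val g.2 (ι g.1 b) ∈ C.lits b}
  refine ⟨C', fun x => ?_, ?_, ?_⟩
  · unfold Circuit.Accepts
    rw [htop]
    constructor
    · rintro ⟨_, ⟨⟨j, τ⟩, ⟨hj, hτ⟩, rfl⟩, h⟩
      refine ⟨j, hj, fun b hb => ?_⟩
      rw [hconj] at h
      by_cases hbX : b ∈ X j
      · obtain ⟨l, hl, hle⟩ := h _ ⟨Sum.inr (val τ (ι j b)), Or.inr ⟨b, hb, hbX, rfl⟩, rfl⟩
        rw [hlits] at hl
        have h1 : l = val τ (ι j b) := hl
        exact ⟨l, by rw [h1]; exact hτ b hb hbX, hle⟩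
      · obtain ⟨l, hl, hle⟩ := h _ ⟨Sum.inl b, Or.inl ⟨b, hb, hbX, rfl⟩, rfl⟩
        rw [hlits] at hl
        exact ⟨l, hl, hle⟩
    · rintro ⟨j, hj, h⟩
      have : Nonempty (Lit N) := ⟨Lit.const false⟩
      choose! lit hlit hle using h
      -- the choice
      have hex : ∃ τ : Fin e → Lit N, ∀ b ∈ X j, val τ (ι j b) = lit b := by
        refine ⟨fun i => if h : ∃ b ∈ X j, ι j b = Sum.inl i then lit h.choose
          else Lit.const false, fun b hb => ?_⟩
        obtain ⟨i, hi, huniq⟩ := hι j b hb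
        show Sum.elim _ _ (ι j b) = _
        rw [hi]
        show dite _ _ _ = _
        have h1 : ∃ b ∈ X j, ι j b = Sum.inl i := ⟨b, hb, hi⟩
        rw [dif_pos h1]
        have h2 := huniq _ h1.choose_spec.1 h1.choose_spec.2
        rw [h2]
      obtain ⟨τ, hτ⟩ := hex
      refine ⟨dm (j, τ), ⟨(j, τ), ⟨hj, fun b hb hbX => ?_⟩, rfl⟩, fun b' hb' => ?_⟩
      · show val τ (ι j b) ∈ C.lits b
        rw [hτ b hbX]
        exact hlit b hb
      · rw [hconj] at hb'
        obtain ⟨a, ha, rfl⟩ := hb'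
        rw [hlits]
        rcases ha with ⟨b, hb, hbX, rfl⟩ | ⟨b, hb, hbX, rfl⟩
        · exact ⟨lit b, hlit b hb, hle b hb⟩
        · refine ⟨val τ (ι j b), rfl, ?_⟩
          rw [hτ b hbX]
          exact hle b hb
  · rw [hmid, Fintype.card_prod, Fintype.card_fin, Fintype.card_fun, Fintype.card_fin]
    exact Nat.mul_le_mul_left _ (Nat.pow_le_pow_left hcard e)
  · rw [htop]
    rintro _ ⟨⟨j, τ⟩, ⟨hj, hτ⟩, rfl⟩
    refine ⟨j, hj, fun b' hb' => ?_⟩
    rw [hconj] at hb'
    obtain ⟨a, ha, rfl⟩ := hb'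
    rcases ha with ⟨b, hb, hbX, rfl⟩ | ⟨b, hb, hbX, rfl⟩
    · refine Or.inr ⟨b, hb, hbX, ?_⟩
      unfold Circuit.vars
      rw [hlits]
      rfl
    · refine Or.inl ?_
      unfold Circuit.vars
      rw [hlits]
      have h1 : {v | ∃ l ∈ (Sum.elim C.lits (fun l => {l}) (Sum.inr (val τ (ι j b)))
          : Set (Lit N)), l.Reads v} = {v | (val τ (ι j b)).Reads v} := by
        ext v
        simp
      rw [h1, Set.encard_le_one_iff]
      intro u v hu hv
      simp only [Set.mem_ofPred_eq] at hu hv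
      cases hl : val τ (ι j b) with
      | pos i =>
        rw [hl] at hu hv
        exact Eq.trans hu (Eq.symm hv)
      | neg i =>
        rw [hl] at hu hv
        exact Eq.trans hu (Eq.symm hv)
      | const c =>
        rw [hl] at hu
        exact hu.elim

end Vale.Agent.P336.R2.H836
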