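import Vale.Agent.P336.R2.H836.Assembly
import Vale.Agent.P336.R2.H444.LangP
import Vale.Agent.P336.R2.H524.Classes
import Vale.Agent.P336.R2.H524.NumN

/-!
# P336: the lower bound for circuits with limited views
-/

namespace Vale.Agent.P336.R2.H836

open Finset

theorem views_main : ∃ L : Set (List Bool), InP L ∧ ∃ C₀ : ℝ, ∀ N w k : ℕ, 1 ≤ w → 1 ≤ k →
    (k : ℝ) * (2 : ℝ) ^ (C₀ * Real.sqrt w) ≤ N → ∀ C : Circuit N,
      (∀ j ∈ C.top, C.Viewed k (w * N) j) →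
      ((∀ x, C.Accepts x ↔ slice L N x = true) ∨ (∀ x, C.Accepts x ↔ slice L N x = false)) →
      (2 : ℝ) ^ ((N : ℝ) / (2 : ℝ) ^ (C₀ * Real.sqrt w)) ≤ C.middle := by
  obtain ⟨C₀, hC₀⟩ := H524.numerics
  refine ⟨lang, H444.inP_lang, C₀, fun N w k hw hk hN C hV hC => ?_⟩
  obtain ⟨p, m, hp4, hm, hpm, hpN, hwN, hkm, hfin⟩ := hC₀ N w k hw hk hN
  have hm1 : 1 ≤ m := le_trans (Nat.mul_pos hk (by positivity)) hkm
  have h9 : 0 < 2 ^ (9 * p) := by positivity
  obtain ⟨a, ha1, ha2, ha3⟩ : ∃ a : ℕ, a ≤ m ∧ m ≤ 2 ^ (9 * p) * a ∧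
      ∀ b, m ≤ 2 ^ (9 * p) * b → a ≤ b := by
    have hex : ∃ b, m ≤ 2 ^ (9 * p) * b := ⟨m, Nat.le_mul_of_pos_left m h9⟩
    refine ⟨Nat.find hex, Nat.find_min' hex (Nat.le_mul_of_pos_left m h9), Nat.find_spec hex,
      fun b hb => Nat.find_min' hex hb⟩
  have hmain : ∀ j ∈ C.top, ∃ (c : Fin C.bottom → Fin p) (A : Fin p → Finset (Fin m)),
      (∀ i, a ≤ (A i).card) ∧
      ∀ b ∈ C.conj j, ∀ l ∈ C.lits b, ∀ v ∈ A (c b), ¬ l.Reads (pos hpm (c b, v)) := by
    classical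
    intro j hj
    obtain ⟨J, V, hVk, hVW, hVr⟩ := hV j hj
    have hcard : ∀ t, (univ.filter fun v : Fin p × Fin m => pos hpm v ∈ V t).card ≤
        (V t).card := by
      intro t
      refine Finset.card_le_card_of_injOn (pos hpm) (fun v hv => ?_)
        ((pos_injective hpm).injOn)
      exact (Finset.mem_filter.1 hv).2
    obtain ⟨c, A, hA, hcA⟩ := H524.exists_classes hp4 hk
      (fun t : Fin J => univ.filter fun v : Fin p × Fin m => pos hpm v ∈ V t)
      (fun t => (hcard t).trans (hVk t))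
      ((Finset.sum_le_sum fun t _ => hcard t).trans (hVW.trans hwN)) hkm
    refine ⟨fun b => if h : ∃ t, ∀ l ∈ C.lits b, ∀ v, l.Reads v → v ∈ V t
      then c h.choose else ⟨0, by omega⟩, A, fun i => ha3 _ (hA i), ?_⟩
    intro b hb l hl v hv hr
    have h := hVr b hb
    simp only [dif_pos h] at hv hr
    have h1 := h.choose_spec l hl _ hr
    exact hcA h.choose v hv (Finset.mem_filter.2 ⟨Finset.mem_univ _, h1⟩)
  refine hfin a C.middle ha2 ?_
  rcases hC with h | h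
  · exact many_gates (by omega) hm hpm hpN hm1 ha1 C hmain true h
  · exact many_gates (by omega) hm hpm hpN hm1 ha1 C hmain false h

end Vale.Agent.P336.R2.H836
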