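import Vale.Agent.P336.R2.H836.CritCylMain
import Vale.Agent.P336.R2.H836.CylMiss
import Vale.Agent.P336.R2.H524.HalfSet
import Vale.Agent.P336.R2.H81.MissProb
import Vale.Agent.P336.R2.H946.NearNum

/-!
# P336: circuits whose bottom gates of critical width, except few, form cylinder intersections
-/

namespace Vale.Agent.P336

/-- The middle gate `j` is, up to the bottom gates of `G`, up to `e` further exceptions and up to
the bottom gates which read at most `r` or at least `n / r` variables, a cylinder intersection of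
`p` parties: there are `p` pairwise disjoint sets of at least `S` variables such that every other
bottom gate which `j` reads reads no variable of one of the sets. -/
def Circuit.NearCylinder {n : ℕ} (C : Circuit n) (G : Finset (Fin C.bottom)) (e r p S : ℕ)
    (j : Fin C.middle) : Prop :=
  ∃ (X : Finset (Fin C.bottom)) (A : Fin p → Finset (Fin n)), X.card ≤ e ∧
    (∀ i, S ≤ (A i).card) ∧ (∀ i i', i ≠ i' → Disjoint (A i) (A i')) ∧
    ∀ b ∈ C.conj j, b ∈ G ∨ b ∈ X ∨ (C.vars b).encard ≤ r ∨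
      (n : ℕ∞) ≤ r * (C.vars b).encard ∨ ∃ i, ∀ v ∈ A i, v ∉ C.vars b

end Vale.Agent.P336

namespace Vale.Agent.P336.R2.H836

open Finset Vale.Agent.P336 Vale.Agent.P336.Cyl
open scoped BigOperators

open Classical in
/-- The variables of a bottom gate outside the header. -/
noncomputable def tailVars {n : ℕ} (C : Circuit n) (h : ℕ) (b : Fin C.bottom) : Finset (Fin n) :=
  univ.filter fun v => v ∈ C.vars b ∧ ¬ (v : ℕ) < h

open Classical in
/-- The gates of `G` which read more than `r` variables outside the header. -/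
noncomputable def killSet {n : ℕ} (C : Circuit n) (G : Finset (Fin C.bottom)) (h r : ℕ) :
    Finset (Fin C.bottom) :=
  G.filter fun b => r < (tailVars C h b).card

/-- The circuit without the wide gates and the killed gates. -/
noncomputable def dropBoth {n : ℕ} (C : Circuit n) (G : Finset (Fin C.bottom)) (h r : ℕ) :
    Circuit n where
  bottom := C.bottom
  middle := C.middle
  lits := C.lits
  conj := fun j => {b | b ∈ C.conj j ∧ ¬ (n : ℕ∞) ≤ r * (C.vars b).encard ∧
    b ∉ killSet C G h r}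
  top := C.top

theorem dropBoth_accepts {n : ℕ} (C : Circuit n) (G : Finset (Fin C.bottom)) (h r : ℕ)
    {y : Fin n → Bool} (hy : C.Accepts y) : (dropBoth C G h r).Accepts y := by
  obtain ⟨j, hj, hy⟩ := hy
  exact ⟨j, hj, fun b hb => hy b hb.1⟩

theorem accepts_of_dropBoth {n : ℕ} (C : Circuit n) (G : Finset (Fin C.bottom)) (h r : ℕ)
    {y : Fin n → Bool} (hy : (dropBoth C G h r).Accepts y)
    (hG : ∀ b ∈ killSet C G h r, ∃ l ∈ C.lits b, l.eval y = true) :
    C.Accepts y ∨ ∃ b ∈ wideSet C r, ¬ ∃ l ∈ C.lits b, l.eval y = true := by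
  by_cases hb : ∃ b ∈ wideSet C r, ¬ ∃ l ∈ C.lits b, l.eval y = true
  · exact Or.inr hb
  · refine Or.inl ?_
    obtain ⟨j, hj, hy⟩ := hy
    refine ⟨j, hj, fun b hbj => ?_⟩
    by_cases hw : (n : ℕ∞) ≤ r * (C.vars b).encard
    · by_contra hs
      refine hb ⟨b, ?_, hs⟩
      unfold wideSet
      exact Finset.mem_filter.2 ⟨Finset.mem_univ _, hw⟩
    · by_cases hk : b ∈ killSet C G h r
      · exact hG b hk
      · exact hy b ⟨hbj, hw, hk⟩

/-- The class after the reduction. -/
def TailCylinder {n : ℕ} (C : Circuit n) (h r p S : ℕ) (j : Fin C.middle) : Prop :=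
  ∃ A : Fin p → Finset (Fin n), (∀ i, S ≤ (A i).card) ∧
    (∀ i i', i ≠ i' → Disjoint (A i) (A i')) ∧
    ∀ b ∈ C.conj j, (tailVars C h b).card ≤ r ∨ ∃ i, ∀ v ∈ A i, v ∉ C.vars b

theorem card_tailVars_le {n h r : ℕ} (C : Circuit n) (b : Fin C.bottom)
    (hb : (C.vars b).encard ≤ r) : (tailVars C h b).card ≤ r := by
  classical
  have h1 : ((tailVars C h b : Finset (Fin n)) : Set (Fin n)) ⊆ C.vars b := by
    intro v hv
    exact (Finset.mem_filter.1 (Finset.mem_coe.1 hv)).2.1
  have h2 := (Set.encard_le_encard h1).trans hb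
  rw [Set.encard_coe_eq_coe_finsetCard] at h2
  exact_mod_cast h2

theorem reduce_near {N e r p S h : ℕ} (hr : 1 ≤ r) (C : Circuit N) (G : Finset (Fin C.bottom))
    (hC : ∀ j ∈ C.top, C.NearCylinder G e r p S j) :
    ∃ C' : Circuit N, (∀ x, C'.Accepts x ↔ (dropBoth C G h r).Accepts x) ∧
      C'.middle ≤ C.middle * (2 * N + 2) ^ e ∧ ∀ j ∈ C'.top, TailCylinder C' h r p S j := by
  classical
  have hX : ∀ j : Fin (dropBoth C G h r).middle, ∃ X : Finset (Fin (dropBoth C G h r).bottom),
      X.card ≤ e ∧ (j ∈ (dropBoth C G h r).top → ∃ A : Fin p → Finset (Fin N),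
        (∀ i, S ≤ (A i).card) ∧ (∀ i i', i ≠ i' → Disjoint (A i) (A i')) ∧
        ∀ b ∈ (dropBoth C G h r).conj j, b ∈ X ∨ (tailVars C h b).card ≤ r ∨
          ∃ i, ∀ v ∈ A i, v ∉ C.vars b) := by
    intro j
    by_cases hj : j ∈ (dropBoth C G h r).top
    · obtain ⟨X, A, hXe, h1, h2, h3⟩ := hC j hj
      refine ⟨X, hXe, fun _ => ⟨A, h1, h2, fun b hb => ?_⟩⟩
      rcases h3 b hb.1 with hb1 | hb1 | hb1 | hb1 | hb1
      · refine Or.inr (Or.inl ?_)
        by_contra hcon
        push Not at hcon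
        exact hb.2.2 (Finset.mem_filter.2 ⟨hb1, hcon⟩)
      · exact Or.inl hb1
      · exact Or.inr (Or.inl (card_tailVars_le C b hb1))
      · exact absurd hb1 hb.2.1
      · exact Or.inr (Or.inr hb1)
    · exact ⟨∅, by simp, fun h => absurd h hj⟩
  choose X hXe hXA using hX
  obtain ⟨C', hacc, hmid, hcon⟩ := exists_reduced (dropBoth C G h r) X hXe
  refine ⟨C', hacc, hmid, fun j' hj' => ?_⟩
  obtain ⟨j, hj, hb⟩ := hcon j' hj'
  obtain ⟨A, h1, h2, h3⟩ := hXA j hj
  refine ⟨A, h1, h2, fun b' hb' => ?_⟩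
  rcases hb b' hb' with hb1 | ⟨b, hbj, hbX, hv⟩
  · refine Or.inl (card_tailVars_le C' b' (hb1.trans ?_))
    exact_mod_cast hr
  · have hv' : C'.vars b' = C.vars b := hv
    have ht : tailVars C' h b' = tailVars C h b := by
      unfold tailVars
      rw [hv']
    rw [ht, hv']
    rcases h3 b hbj with hb2 | hb2
    · exact absurd hb2 hbX
    · exact hb2

/-- The class for arbitrary functions. -/
theorem toAny_tail {n h r p S : ℕ} (C : Circuit n)
    (hC : ∀ j ∈ C.top, TailCylinder C h r p S j) (j : Fin (toAny C).middle) :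
    ∃ A : Fin p → Finset (Fin n), (∀ i, S ≤ (A i).card) ∧
      (∀ i i', i ≠ i' → Disjoint (A i) (A i')) ∧
      ∀ b, (((toAny C).reads j b).filter fun v : Fin n => ¬ (v : ℕ) < h).card ≤ r ∨
        ∃ i, Disjoint (A i) ((toAny C).reads j b) := by
  classical
  have hj := ((Fintype.equivFin {j : Fin C.middle // j ∈ C.top}).symm j).2
  obtain ⟨A, h1, h2, h3⟩ := hC _ hj
  refine ⟨A, h1, h2, fun b => ?_⟩
  by_cases hb : b ∈ C.conj ((Fintype.equivFin {j : Fin C.middle // j ∈ C.top}).symm j)
  · have hr : (toAny C).reads j b = Finset.univ.filter fun v => v ∈ C.vars b := if_pos hb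
    rw [hr]
    rcases h3 b hb with h4 | ⟨i, h4⟩
    · left
      refine le_trans (Finset.card_le_card fun v hv => ?_) h4
      obtain ⟨h5, h6⟩ := Finset.mem_filter.1 hv
      exact Finset.mem_filter.2 ⟨Finset.mem_univ _, (Finset.mem_filter.1 h5).2, h6⟩
    · right
      refine ⟨i, Finset.disjoint_left.2 fun v hv hv' => h4 v hv (Finset.mem_filter.1 hv').2⟩
  · left
    have hr : (toAny C).reads j b = ∅ := if_neg hb
    rw [hr, Finset.filter_empty, Finset.card_empty]
    exact Nat.zero_le _

/-- One more function under every gate. -/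
def addFn {n : ℕ} (C : AnyCircuit n) (g : (Fin n → Bool) → Bool) (W : Finset (Fin n))
    (hg : ∀ x y, (∀ v ∈ W, x v = y v) → g x = g y) : AnyCircuit n where
  middle := C.middle
  fanIn := fun j => C.fanIn j + 1
  fn := fun j => Fin.cases g (C.fn j)
  reads := fun j => Fin.cases W (C.reads j)
  congr := by
    intro j b
    refine Fin.cases ?_ (fun b => ?_) b
    · exact fun x y h => hg x y h
    · exact fun x y h => C.congr j b x y h

theorem addFn_accepts {n : ℕ} (C : AnyCircuit n) (g : (Fin n → Bool) → Bool) (W : Finset (Fin n))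
    (hg : ∀ x y, (∀ v ∈ W, x v = y v) → g x = g y) (x : Fin n → Bool) :
    (addFn C g W hg).Accepts x ↔ g x = true ∧ C.Accepts x := by
  constructor
  · rintro ⟨j, h⟩
    exact ⟨h (0 : Fin (C.fanIn j + 1)), j, fun b => h (Fin.succ b : Fin (C.fanIn j + 1))⟩
  · rintro ⟨h0, j, h⟩
    refine ⟨j, fun b => ?_⟩
    revert b
    refine Fin.cases ?_ (fun b => ?_)
    · exact h0
    · exact h b

end Vale.Agent.P336.R2.H836
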