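import Vale.Agent.P336.R2.H836.NearCyl

/-!
# P336: the lower bound for circuits whose bottom gates of critical width, except few, form
cylinder intersections
-/

namespace Vale.Agent.P336.R2.H836

open Finset Vale.Agent.P336 Vale.Agent.P336.Cyl
open scoped BigOperators

/-- The numbers for the half set. -/
theorem half_hyp {K₀ N p S r t q M : ℕ} (hN : 1 ≤ N) (hp : 2 ≤ p) (ht : 1 ≤ t) (hr : 1 ≤ r)
    (hKt : 1024 * (K₀ + 1) * r * p ^ 2 * 2 ^ p * N * t ≤ S ^ 2) (hpS : p * S ≤ N)
    (hq : q * q ≤ N) (hM : M ≤ 2 ^ (3 * t)) : M * p * 4 ≤ 2 ^ ((S - 2 * q) / 16) := by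
  have hS := H946.S_ge hN hp ht hr hKt hpS
  have hp3 : 8 ≤ p ^ 3 := by
    calc 8 = 2 ^ 3 := by norm_num
      _ ≤ p ^ 3 := Nat.pow_le_pow_left hp 3
  have h2p : p < 2 ^ p := Nat.lt_two_pow_self
  have hS2 : 8192 * (2 ^ p * t) ≤ S := by
    calc 8192 * (2 ^ p * t) = 1024 * 1 * 8 * 2 ^ p * t := by ring
      _ ≤ 1024 * r * p ^ 3 * 2 ^ p * t := by gcongr
      _ ≤ S := hS
  have hpt : p + t ≤ 2 ^ p * t := by nlinarith
  have hqS : 128 * q ≤ S := by
    have h1 : (128 * q) * (128 * q) ≤ S * S := by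
      have h2 : 16384 * N ≤ S ^ 2 := by
        refine le_trans ?_ hKt
        have h4 : 16 ≤ p ^ 2 * 2 ^ p := by
          have h5 : 4 ≤ p ^ 2 := by
            calc 4 = 2 ^ 2 := by norm_num
              _ ≤ p ^ 2 := Nat.pow_le_pow_left hp 2
          have h6 : 4 ≤ 2 ^ p := by
            calc 4 = 2 ^ 2 := by norm_num
              _ ≤ 2 ^ p := Nat.pow_le_pow_right (by norm_num) hp
          nlinarith
        calc 16384 * N = 1024 * 1 * 1 * 16 * N * 1 := by ring
          _ ≤ 1024 * (K₀ + 1) * r * (p ^ 2 * 2 ^ p) * N * t := by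
            gcongr
            omega
          _ = 1024 * (K₀ + 1) * r * p ^ 2 * 2 ^ p * N * t := by ring
      nlinarith
    exact Nat.mul_self_le_mul_self_iff.mp h1
  calc M * p * 4 ≤ 2 ^ (3 * t) * 2 ^ p * 2 ^ 2 := by
        refine Nat.mul_le_mul (Nat.mul_le_mul hM h2p.le) (by norm_num)
    _ = 2 ^ (3 * t + p + 2) := by rw [← pow_add, ← pow_add]
    _ ≤ 2 ^ ((S - 2 * q) / 16) := Nat.pow_le_pow_right (by norm_num) (by omega)

/-- **Circuits whose bottom gates of critical width, except few, form cylinder intersections.** -/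
theorem near_main : ∃ K : ℕ, ∀ N p S r e t : ℕ, 1 ≤ N → 2 ≤ p → 1 ≤ r → 1 ≤ t →
    e * Nat.size N ≤ t → 16 * r ^ 2 ≤ N → K * r * p ^ 2 * 2 ^ p * N * t ≤ S ^ 2 → p * S ≤ N →
    ∀ (C : Circuit N) (G : Finset (Fin C.bottom)), G.card * 2 ^ 8 ≤ 2 ^ (r / 16) →
    (∀ j ∈ C.top, C.NearCylinder G e r p S j) →
    ((∀ x, C.Accepts x ↔ slice Cyl.lang N x = true) ∨
      (∀ x, C.Accepts x ↔ slice Cyl.lang N x = false)) →
    2 ^ t ≤ max C.middle (C.wideCount r) := by
  classical
  obtain ⟨K, hK⟩ := wmain_miss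
  refine ⟨1024 * (K + 1), fun N p S r e t hN hp hr ht he h16 hKt hpS C G hG hC hf => ?_⟩
  obtain ⟨hnum1, hnum2, hnum3⟩ := H946.near_numerics hN hp ht hr hKt hpS (root_mul_le N)
  obtain ⟨ρ, rr, hrr, hrr0, hrrN, hslice, hmain⟩ :=
    hK N p ((S - 2 * root N) / 8) r (3 * t + 1) hN hp hr (by omega) hnum1 hnum2
  have har := arith_wide (K := 1024 * (K + 1)) (by omega) hN hp ht hr hKt hpS h16 (root_mul_le N)
  obtain ⟨C', hacc, hmid, htail⟩ := reduce_near (h := 2 * root N) hr C G hC
  by_contra hcon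
  push Not at hcon
  have hM : C.middle < 2 ^ t := lt_of_le_of_lt (le_max_left _ _) hcon
  have hB : C.wideCount r < 2 ^ t := lt_of_le_of_lt (le_max_right _ _) hcon
  have hM' : C'.middle < 2 ^ (3 * t) := by
    refine lt_of_le_of_lt (hmid.trans (Nat.mul_le_mul_left _ (pow_exc_le hN he))) ?_
    calc C.middle * 2 ^ (2 * t) < 2 ^ t * 2 ^ (2 * t) :=
          Nat.mul_lt_mul_of_pos_right hM (by positivity)
      _ = 2 ^ (3 * t) := by rw [← pow_add]; congr 1; ring
  have hM'' : (toAny C').middle < 2 ^ (3 * t) := lt_of_le_of_lt (toAny_middle C') hM'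
  have hany := toAny_tail C' htail
  choose A hA1 hA2 hA3 using hany
  -- the killed gates
  obtain ⟨G', hG'⟩ : ∃ G' : Finset (Fin C.bottom), G' = killSet C G (2 * root N) r := ⟨_, rfl⟩
  have hG'card : G'.card ≤ G.card := by
    rw [hG']
    exact Finset.card_filter_le _ _
  have hG'8 : G'.card * 2 ^ 8 ≤ 2 ^ (r / 16) := (Nat.mul_le_mul_right _ hG'card).trans hG
  have hG'r : ∀ b ∈ G', r ≤ (tailVars C (2 * root N) b).card := by
    intro b hb
    rw [hG'] at hb
    exact (Finset.mem_filter.1 hb).2.le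
  -- the half set
  obtain ⟨_, hn2⟩ := hnum3 (toAny C').middle G'.card hM''.le hG'8
  have hAtail : ∀ (k : Fin (toAny C').middle × Fin p), S - 2 * root N ≤
      ((A k.1 k.2).filter fun v : Fin N => ¬ (v : ℕ) < 2 * root N).card := by
    intro k
    have h1 := hA1 k.1 k.2
    have h2 : (A k.1 k.2) ⊆ ((A k.1 k.2).filter fun v : Fin N => ¬ (v : ℕ) < 2 * root N) ∪
        univ.filter fun v : Fin N => (v : ℕ) < 2 * root N := by
      intro v hv
      by_cases h5 : (v : ℕ) < 2 * root N
      · exact mem_union_right _ (mem_filter.2 ⟨mem_univ _, h5⟩)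
      · exact mem_union_left _ (mem_filter.2 ⟨hv, h5⟩)
    have h3 : (univ.filter fun v : Fin N => (v : ℕ) < 2 * root N).card ≤ 2 * root N := by
      have h6 : (univ.filter fun v : Fin N => (v : ℕ) < 2 * root N).card ≤
          (range (2 * root N)).card := by
        refine card_le_card_of_injOn (fun v => (v : ℕ)) ?_ ?_
        · intro v hv
          have hv' : v ∈ univ.filter fun v : Fin N => (v : ℕ) < 2 * root N := hv
          exact mem_coe.2 (mem_range.2 (mem_filter.1 hv').2)
        · exact fun a _ b _ h => Fin.ext h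
      rwa [card_range] at h6
    have h4 := (card_le_card h2).trans (card_union_le _ _)
    omega
  obtain ⟨U, hU1, hU2⟩ := H524.half_set (N := N) (I := {b // b ∈ G'})
    (J := Fin (toAny C').middle × Fin p) r (S - 2 * root N)
    (fun b => tailVars C (2 * root N) b.1)
    (fun k => (A k.1 k.2).filter fun v : Fin N => ¬ (v : ℕ) < 2 * root N)
    (fun b => hG'r b.1 b.2) hAtail (by
      rw [Fintype.card_coe]
      omega) (by
      rw [Fintype.card_prod, Fintype.card_fin, Fintype.card_fin]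
      exact half_hyp hN hp ht hr hKt hpS (root_mul_le N) hM''.le)
  -- the extra function: every killed gate has a true letter outside `U`
  have hcongr : ∀ x y : Fin N → Bool, (∀ v ∈ (univ \ U : Finset (Fin N)), x v = y v) →
      decide (∀ b ∈ G', ∃ l ∈ C.lits b, (∀ v, l.Reads v → v ∉ U) ∧ l.eval x = true) =
      decide (∀ b ∈ G', ∃ l ∈ C.lits b, (∀ v, l.Reads v → v ∉ U) ∧ l.eval y = true) := by
    intro x y hxy
    rw [decide_eq_decide]
    refine forall_congr' fun b => forall_congr' fun _ => exists_congr fun l =>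
      and_congr_right fun _ => and_congr_right fun hl => ?_
    rw [l.eval_congr fun v hv => hxy v (mem_sdiff.2 ⟨mem_univ _, hl v hv⟩)]
  obtain ⟨D, hD⟩ : ∃ D : AnyCircuit N, D = addFn (toAny C')
      (fun x => decide (∀ b ∈ G', ∃ l ∈ C.lits b, (∀ v, l.Reads v → v ∉ U) ∧ l.eval x = true))
      (univ \ U) hcongr := ⟨_, rfl⟩
  have hDacc : ∀ x, D.Accepts x ↔ (∀ b ∈ G', ∃ l ∈ C.lits b, (∀ v, l.Reads v → v ∉ U) ∧
      l.eval x = true) ∧ (toAny C').Accepts x := by
    intro x
    rw [hD, addFn_accepts, decide_eq_true_iff]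
  have hDmid : D.middle = (toAny C').middle := by rw [hD]; rfl
  have hclass : ∀ j, D.WideCylinder p ((S - 2 * root N) / 8) r j := by
    rw [hD]
    intro j
    refine ⟨fun i => ((A j i).filter fun v : Fin N => ¬ (v : ℕ) < 2 * root N) ∩ U,
      fun i => ?_, fun i i' hne => ?_, ?_⟩
    · have h5 : (S - 2 * root N) / 4 ≤
          (((A j i).filter fun v : Fin N => ¬ (v : ℕ) < 2 * root N) ∩ U).card := hU2 (j, i)
      show (S - 2 * root N) / 8 ≤
        (((A j i).filter fun v : Fin N => ¬ (v : ℕ) < 2 * root N) ∩ U).card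
      omega
    · exact (hA2 j i i' hne).mono (inter_subset_left.trans (filter_subset _ _))
        (inter_subset_left.trans (filter_subset _ _))
    · intro b
      revert b
      refine Fin.cases ?_ (fun b => ?_)
      · left
        refine ⟨⟨0, by omega⟩, ?_⟩
        refine Finset.disjoint_left.2 fun v hv hv' => ?_
        exact (mem_sdiff.1 hv').2 (mem_inter.1 hv).2
      · rcases hA3 j b with h1 | ⟨i, h1⟩
        · right
          refine le_trans (Finset.card_le_card fun v hv => ?_) h1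
          obtain ⟨h2, i, h3⟩ := mem_filter.1 hv
          exact mem_filter.2 ⟨h2, (mem_filter.1 (mem_inter.1 h3).1).2⟩
        · left
          refine ⟨i, Finset.disjoint_left.2 fun v hv hv' => ?_⟩
          exact (Finset.disjoint_left.1 h1) (mem_filter.1 (mem_inter.1 hv).1).1 hv'
  -- the form
  obtain ⟨b, hb⟩ : ∃ b : ZMod 2, ∀ (s : Fin rr → ZMod 2)
      (x : Fin (N - (2 * root N + rr)) → ZMod 2),
      C.Accepts (word N (root N) p ρ rr s x) ↔ Cyl.form p s x = b := by
    have hz : ∀ z : ZMod 2, z ≠ 1 ↔ z = 0 := by decide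
    rcases hf with hf | hf
    · exact ⟨1, fun s x => by rw [hf, hslice]⟩
    · refine ⟨0, fun s x => ?_⟩
      rw [hf, ← hz, Ne, ← hslice s x, Bool.not_eq_true]
  have hbad : (D.middle : ℝ) * 𝔼 s : Fin rr → ZMod 2,
      𝔼 x : Fin (N - (2 * root N + rr)) → ZMod 2,
        (if (∃ b ∈ wideSet C r, ¬ ∃ l ∈ C.lits b,
          l.eval (word N (root N) p ρ rr s x) = true) then (1 : ℝ) else 0) ≤ 1 / 8 := by
    have h1 := H81.cyl_bad_prob (N := N) (q := root N) (p := p) (ρ := ρ) (r := rr) C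
      ⌈(N : ℝ) / r⌉₊ (wideSet C r) (fun b hb => by
        unfold wideSet at hb
        exact ceil_le_encard hr (Finset.mem_filter.1 hb).2)
    rw [card_wideSet] at h1
    have h2 : (1 / 2 : ℝ) ^ (⌈(N : ℝ) / r⌉₊ - 2 * root N) ≤ (1 / 2) ^ (4 * t + 3) :=
      pow_le_pow_of_le_one (by norm_num) (by norm_num) (by omega)
    have h3 : (D.middle : ℝ) ≤ 2 ^ (3 * t) := by
      rw [hDmid]
      exact_mod_cast hM''.le
    have h4 : (C.wideCount r : ℝ) ≤ 2 ^ t := by exact_mod_cast hB.le
    calc (D.middle : ℝ) * _ ≤ 2 ^ (3 * t) * (2 ^ t * (1 / 2) ^ (4 * t + 3)) := by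
          refine mul_le_mul h3 (h1.trans ?_) ?_ (by positivity)
          · exact mul_le_mul h4 h2 (by positivity) (by positivity)
          · exact Finset.expect_nonneg fun s _ => Finset.expect_nonneg fun x _ => by
              split_ifs <;> norm_num
      _ = (2 ^ (4 * t) * (1 / 2) ^ (4 * t)) * (1 / 8) := by
          rw [show 4 * t = 3 * t + t by ring, pow_add, pow_add, pow_add]
          ring
      _ = 1 / 8 := by
          rw [← mul_pow]
          norm_num
  have hmiss : 𝔼 s : Fin rr → ZMod 2, 𝔼 x : Fin (N - (2 * root N + rr)) → ZMod 2,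
      (if ¬ (∀ b ∈ G', ∃ l ∈ C.lits b, (∀ v, l.Reads v → v ∉ U) ∧
        l.eval (word N (root N) p ρ rr s x) = true) then (1 : ℝ) else 0) ≤ 1 / 16 := by
    have h1 := H81.miss_prob (N := N) (q := root N) (p := p) (ρ := ρ) (r := rr) (n := r / 8) C
      G' U (fun b hb => by
        have h2 := hU1 ⟨b, hb⟩
        simp only at h2
        have h3 : tailVars C (2 * root N) b \ U = univ.filter fun v : Fin N =>
            v ∈ C.vars b ∧ ¬ (v : ℕ) < 2 * root N ∧ v ∉ U := by
          ext v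
          simp [tailVars, and_assoc]
        rw [h3] at h2
        omega)
    refine le_trans (le_of_eq ?_) (h1.trans hn2)
    refine Finset.expect_congr rfl fun s _ => Finset.expect_congr rfl fun x _ => ?_
    rw [ite_not]
  have hfinal := hmain D hclass b
    (fun s x => ∃ b ∈ wideSet C r, ¬ ∃ l ∈ C.lits b,
      l.eval (word N (root N) p ρ rr s x) = true)
    (fun s x => ¬ (∀ b ∈ G', ∃ l ∈ C.lits b, (∀ v, l.Reads v → v ∉ U) ∧
        l.eval (word N (root N) p ρ rr s x) = true))
    (fun s x h => by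
      by_cases hg : ∀ b ∈ G', ∃ l ∈ C.lits b, (∀ v, l.Reads v → v ∉ U) ∧
          l.eval (word N (root N) p ρ rr s x) = true
      · left
        rw [hDacc]
        exact ⟨hg, (toAny_accepts C' _).2 ((hacc _).2 (dropBoth_accepts C G _ r ((hb s x).2 h)))⟩
      · exact Or.inr hg)
    (fun s x h => by
      rw [hDacc] at h
      refine (accepts_of_dropBoth C G (2 * root N) r
        ((hacc _).1 ((toAny_accepts C' _).1 h.2)) fun b hb' => ?_).imp (hb s x).1 id
      obtain ⟨l, hl, _, hle⟩ := h.1 b (by rw [hG']; exact hb')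
      exact ⟨l, hl, hle⟩) ?_ ?_
  · rw [hDmid] at hfinal
    rw [pow_succ] at hfinal
    omega
  · refine le_trans (le_of_eq ?_) hbad
    congr 1
    refine Finset.expect_congr rfl fun s _ => Finset.expect_congr rfl fun x _ => ?_
    by_cases hq : ∃ b ∈ wideSet C r, ¬ ∃ l ∈ C.lits b,
        l.eval (word N (root N) p ρ rr s x) = true
    · rw [if_pos hq, if_pos hq]
    · rw [if_neg hq, if_neg hq]
  · refine le_trans (le_of_eq ?_) hmiss
    refine Finset.expect_congr rfl fun s _ => Finset.expect_congr rfl fun x _ => ?_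
    by_cases hq : ¬ (∀ b ∈ G', ∃ l ∈ C.lits b, (∀ v, l.Reads v → v ∉ U) ∧
        l.eval (word N (root N) p ρ rr s x) = true)
    · rw [if_pos hq, if_pos hq]
    · rw [if_neg hq, if_neg hq]

end Vale.Agent.P336.R2.H836
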