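import Vale.Agent.P336.H663.Defs

/-!
# P336: an explicit language for depth-three circuits with limited views

A word of length `N` is cut into the quarters `q`, `s`, `x` (and a rest) of length `h = N / 4`.
Let `p` be the number of ones of `q` and `m = h / p`.  The word is in the language if the
inner product of `s` with the coefficients of the product of the `p` polynomials
`∑_{j < m} x_{i m + j} z ^ j` over the field with two elements is one.
-/

namespace Vale.Agent.P336.R2.H836

open Polynomial Finset

/-- The bit of a word in a position, as a natural number. -/
def bit (l : List Bool) (i : ℕ) : ℕ := (l.getD i false).toNat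

/-- Multiply the polynomial with coefficient list `c` by `∑_{j < m} x_{o + i m + j} z ^ j`,
modulo two and modulo `z ^ h`. -/
def mulStep (w : List Bool) (o m h : ℕ) (c : List Bool) (i : ℕ) : List Bool :=
  (List.range h).map fun d =>
    decide ((∑ j ∈ range m, if j ≤ d then bit w (o + i * m + j) * bit c (d - j) else 0) % 2 = 1)

/-- The coefficients of the product of the `p` polynomials. -/
def coeffs (w : List Bool) (o m h p : ℕ) : List Bool :=
  (List.range p).foldl (mulStep w o m h) [true]

/-- The value of a word: the inner product of `s` with the coefficients. -/
def value (w : List Bool) : ℕ :=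
  ∑ d ∈ range (w.length / 4), bit w (w.length / 4 + d) *
    bit (coeffs w (2 * (w.length / 4)) (w.length / 4 / (w.take (w.length / 4)).count true)
      (w.length / 4) ((w.take (w.length / 4)).count true)) d

/-- The explicit language. -/
def lang : Set (List Bool) := {w | value w % 2 = 1}

/-- The polynomial of the block `i` of the variables. -/
noncomputable def blockPoly {p m : ℕ} (x : Fin p × Fin m → Bool) (i : Fin p) : (ZMod 2)[X] :=
  ∑ j : Fin m, if x (i, j) = true then X ^ (j : ℕ) else 0

/-- The form: the inner product of `s` with the coefficients of the product of the block
polynomials. -/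
noncomputable def form {p m h : ℕ} (s : Fin h → Bool) (x : Fin p × Fin m → Bool) : ZMod 2 :=
  ∑ d : Fin h, if s d = true then (∏ i, blockPoly x i).coeff (d : ℕ) else 0

end Vale.Agent.P336.R2.H836
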