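import Vale.Agent.P336.R2.H836.WideViews
import Vale.Agent.P336.R2.H836.Spec

/-!
# P336: an explicit language for circuits without bottom gates of critical width

As in `Spec.lean`, but the number `p` of blocks is the number of ones among the first
`Nat.size N` letters of the word only (the other letters of the first quarter are ignored), so
that all but `Nat.size N` letters are free.
-/

namespace Vale.Agent.P336.R2.H836

open Polynomial Finset

/-- The value of a word: the inner product of `s` with the coefficients. -/
def value2 (w : List Bool) : ℕ :=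
  ∑ d ∈ range (w.length / 4), bit w (w.length / 4 + d) *
    bit (coeffs w (2 * (w.length / 4))
      (w.length / 4 / (w.take (Nat.size w.length)).count true)
      (w.length / 4) ((w.take (Nat.size w.length)).count true)) d

/-- The explicit language. -/
def lang2 : Set (List Bool) := {w | value2 w % 2 = 1}

/-- The word with the header `p`, with the letters `s` and `x`, all other letters being those of
`u`. -/
def wordOf2 (N p m : ℕ) (u : Fin N → Bool) (s : Fin (N / 4) → Bool) (x : Fin p × Fin m → Bool) :
    Fin N → Bool :=
  fun t =>
    if (t : ℕ) < Nat.size N then decide ((t : ℕ) < p)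
    else if hs : N / 4 ≤ (t : ℕ) ∧ (t : ℕ) - N / 4 < N / 4 then s ⟨t - N / 4, hs.2⟩
    else if hx : 2 * (N / 4) ≤ (t : ℕ) ∧ ((t : ℕ) - 2 * (N / 4)) / m < p ∧ 0 < m then
      x (⟨((t : ℕ) - 2 * (N / 4)) / m, hx.2.1⟩,
        ⟨((t : ℕ) - 2 * (N / 4)) % m, Nat.mod_lt _ hx.2.2⟩)
    else u t

end Vale.Agent.P336.R2.H836
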